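import Mathlib.Analysis.InnerProductSpace.Basic
import Mathlib.Analysis.Convex.Combination
import Mathlib.Analysis.Convex.Topology
import Mathlib.Tactic

/-! Sign pairs of finite symmetric sets (vertex sets of a symmetric polytope and of its polar such
that every pairing is `1` or `-1`), the polyhedral norm `nrm`, and convex representations. -/

namespace Vale.Agent.P248Z.Eq

variable {E : Type*} [NormedAddCommGroup E] [InnerProductSpace ℝ E]

/-- `V` and `W` are the vertex sets of two symmetric polytopes, polar to each other, and every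
pairing of a point of `W` with a point of `V` is `1` or `-1`. -/
structure CLPair (V W : Finset E) : Prop where
  neV : V.Nonempty
  neW : W.Nonempty
  negV : ∀ x ∈ V, -x ∈ V
  negW : ∀ e ∈ W, -e ∈ W
  sign : ∀ e ∈ W, ∀ x ∈ V, inner ℝ e x = (1 : ℝ) ∨ inner ℝ e x = (-1 : ℝ)
  hullV : ∀ x, (∀ e ∈ W, inner ℝ e x ≤ (1 : ℝ)) → x ∈ convexHull ℝ (V : Set E)
  hullW : ∀ y, (∀ x ∈ V, inner ℝ y x ≤ (1 : ℝ)) → y ∈ convexHull ℝ (W : Set E)

theorem CLPair.symm {V W : Finset E} (h : CLPair V W) : CLPair W V where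
  neV := h.neW
  neW := h.neV
  negV := h.negW
  negW := h.negV
  sign := fun e he x hx => by rw [real_inner_comm]; exact h.sign x hx e he
  hullV := fun x hx => h.hullW x fun e he => by rw [real_inner_comm]; exact hx e he
  hullW := fun y hy => h.hullV y fun e he => by rw [real_inner_comm]; exact hy e he

theorem CLPair.le_one {V W : Finset E} (h : CLPair V W) {e x : E} (he : e ∈ W) (hx : x ∈ V) :
    inner ℝ e x ≤ (1 : ℝ) := by
  rcases h.sign e he x hx with h1 | h1 <;> simp [h1]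

theorem CLPair.neg_one_le {V W : Finset E} (h : CLPair V W) {e x : E} (he : e ∈ W) (hx : x ∈ V) :
    (-1 : ℝ) ≤ inner ℝ e x := by
  rcases h.sign e he x hx with h1 | h1 <;> simp [h1]

/-- The support function of the finite set `V`. -/
noncomputable def nrm (V : Finset E) (u : E) : ℝ :=
  sSup ((fun x => inner ℝ u x) '' (V : Set E))

theorem le_nrm {V : Finset E} (u : E) {x : E} (hx : x ∈ V) : inner ℝ u x ≤ nrm V u :=
  le_csSup ((V.finite_toSet.image _).bddAbove) ⟨x, hx, rfl⟩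

theorem exists_eq_nrm {V : Finset E} (hV : V.Nonempty) (u : E) :
    ∃ x ∈ V, inner ℝ u x = nrm V u := by
  have h := Set.Nonempty.csSup_mem (s := (fun x => inner ℝ u x) '' (V : Set E))
    ((Finset.coe_nonempty.2 hV).image _) (V.finite_toSet.image _)
  obtain ⟨x, hx, h⟩ := h
  exact ⟨x, hx, h⟩

theorem nrm_le {V : Finset E} (hV : V.Nonempty) {u : E} {r : ℝ}
    (h : ∀ x ∈ V, inner ℝ u x ≤ r) : nrm V u ≤ r := by
  obtain ⟨x, hx, hx'⟩ := exists_eq_nrm hV u
  exact hx' ▸ h x hx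

theorem nrm_add_le {V : Finset E} (hV : V.Nonempty) (u v : E) :
    nrm V (u + v) ≤ nrm V u + nrm V v :=
  nrm_le hV fun x hx => by
    rw [inner_add_left]
    exact add_le_add (le_nrm u hx) (le_nrm v hx)

theorem nrm_neg {V : Finset E} (hV : V.Nonempty) (hneg : ∀ x ∈ V, -x ∈ V) (u : E) :
    nrm V (-u) = nrm V u := by
  have key : ∀ v : E, nrm V (-v) ≤ nrm V v := fun v => nrm_le hV fun x hx => by
    have := le_nrm v (hneg x hx)
    rwa [inner_neg_right, ← inner_neg_left] at this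
  refine le_antisymm (key u) ?_
  have := key (-u)
  rwa [neg_neg] at this

theorem nrm_nonneg {V : Finset E} (hV : V.Nonempty) (hneg : ∀ x ∈ V, -x ∈ V) (u : E) :
    0 ≤ nrm V u := by
  obtain ⟨x, hx⟩ := hV
  have h1 := le_nrm u hx
  have h2 := le_nrm u (hneg x hx)
  rw [inner_neg_right] at h2
  linarith

theorem neg_nrm_le {V : Finset E} (hneg : ∀ x ∈ V, -x ∈ V) (u : E) {x : E} (hx : x ∈ V) :
    -nrm V u ≤ inner ℝ u x := by
  have h2 := le_nrm u (hneg x hx)
  rw [inner_neg_right] at h2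
  linarith

theorem nrm_sub_le {V : Finset E} (hV : V.Nonempty) (hneg : ∀ x ∈ V, -x ∈ V) (u v : E) :
    nrm V (u - v) ≤ nrm V u + nrm V v := by
  rw [sub_eq_add_neg, ← nrm_neg hV hneg v]
  exact nrm_add_le hV u (-v)

theorem nrm_zero {V : Finset E} (hV : V.Nonempty) : nrm V (0 : E) = 0 := by
  obtain ⟨x, -, hx⟩ := exists_eq_nrm hV (0 : E)
  rw [← hx, inner_zero_left]

theorem nrm_smul {V : Finset E} (hV : V.Nonempty) {t : ℝ} (ht : 0 ≤ t) (u : E) :
    nrm V (t • u) = t * nrm V u := by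
  refine le_antisymm (nrm_le hV fun x hx => ?_) ?_
  · rw [real_inner_smul_left]
    exact mul_le_mul_of_nonneg_left (le_nrm u hx) ht
  · obtain ⟨x, hx, hx'⟩ := exists_eq_nrm hV u
    rw [← hx', ← real_inner_smul_left]
    exact le_nrm _ hx

theorem continuous_nrm {V : Finset E} (hV : V.Nonempty) : Continuous (nrm V) := by
  obtain ⟨D, hD⟩ : ∃ D : ℝ, ∀ x ∈ V, ‖x‖ ≤ D :=
    ⟨∑ x ∈ V, ‖x‖, fun x hx => Finset.single_le_sum (fun y _ => norm_nonneg y) hx⟩
  have hD0 : 0 ≤ D := by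
    obtain ⟨x, hx⟩ := hV
    exact (norm_nonneg x).trans (hD x hx)
  have key : ∀ u v : E, nrm V u ≤ nrm V v + D * dist u v := fun u v => nrm_le hV fun x hx => by
    have h1 := le_nrm v hx
    have h2 : inner ℝ (u - v) x ≤ ‖u - v‖ * ‖x‖ := real_inner_le_norm _ _
    rw [inner_sub_left] at h2
    have h3 : ‖u - v‖ * ‖x‖ ≤ ‖u - v‖ * D := mul_le_mul_of_nonneg_left (hD x hx) (norm_nonneg _)
    rw [dist_eq_norm]
    linarith
  exact (LipschitzWith.of_le_add_mul' D key).continuous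

/-- The inner product with a nonnegative combination. -/
theorem inner_sum_smul (W : Finset E) (α : E → ℝ) (x : E) :
    inner ℝ (∑ e ∈ W, α e • e) x = ∑ e ∈ W, α e * inner ℝ e x := by
  rw [sum_inner]
  exact Finset.sum_congr rfl fun e _ => real_inner_smul_left _ _ _

theorem norm_le_of_mem_hull {W : Finset E} {y : E} (hy : y ∈ convexHull ℝ (W : Set E)) :
    ‖y‖ ≤ ∑ e ∈ W, ‖e‖ := by
  have : convexHull ℝ (W : Set E) ⊆ Metric.closedBall 0 (∑ e ∈ W, ‖e‖) :=
    convexHull_min (fun e he => by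
      rw [mem_closedBall_zero_iff]
      exact Finset.single_le_sum (fun y _ => norm_nonneg y) he) (convex_closedBall _ _)
  exact mem_closedBall_zero_iff.1 (this hy)

theorem CLPair.eq_zero_of_nrm {V W : Finset E} (h : CLPair V W) {p : E} (hp : nrm V p = 0) :
    p = 0 := by
  by_contra hne
  have hpos : 0 < ‖p‖ := norm_pos_iff.2 hne
  set D := ∑ e ∈ W, ‖e‖ with hD
  have hD0 : 0 ≤ D := Finset.sum_nonneg fun _ _ => norm_nonneg _
  have ht : 0 ≤ (D + 1) / ‖p‖ := by positivity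
  have hmem : ((D + 1) / ‖p‖) • p ∈ convexHull ℝ (W : Set E) := h.hullW _ fun x hx => by
    have := le_nrm (((D + 1) / ‖p‖) • p) hx
    rw [nrm_smul h.neV ht, hp, mul_zero] at this
    linarith
  have := norm_le_of_mem_hull hmem
  rw [norm_smul, Real.norm_of_nonneg ht, div_mul_cancel₀ _ hpos.ne'] at this
  linarith

/-- Every vector is a nonnegative combination of points of `W` with total mass its norm. -/
theorem CLPair.exists_rep {V W : Finset E} (h : CLPair V W) (p : E) :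
    ∃ α : E → ℝ, (∀ e ∈ W, 0 ≤ α e) ∧ ∑ e ∈ W, α e = nrm V p ∧ ∑ e ∈ W, α e • e = p := by
  rcases (nrm_nonneg h.neV h.negV p).eq_or_lt with h0 | hpos
  · refine ⟨fun _ => 0, fun _ _ => le_rfl, by simp [← h0], ?_⟩
    simp [h.eq_zero_of_nrm h0.symm]
  · have hmem : (nrm V p)⁻¹ • p ∈ convexHull ℝ (W : Set E) := h.hullW _ fun x hx => by
      have := le_nrm ((nrm V p)⁻¹ • p) hx
      rwa [nrm_smul h.neV (inv_nonneg.2 hpos.le), inv_mul_cancel₀ hpos.ne'] at this
    obtain ⟨w, hw0, hw1, hw2⟩ := Finset.mem_convexHull'.1 hmem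
    refine ⟨fun e => nrm V p * w e, fun e he => mul_nonneg hpos.le (hw0 e he), ?_, ?_⟩
    · rw [← Finset.mul_sum, hw1, mul_one]
    · simp_rw [mul_smul]
      rw [← Finset.smul_sum, hw2, smul_smul, mul_inv_cancel₀ hpos.ne', one_smul]

theorem CLPair.norm_le {V W : Finset E} (h : CLPair V W) (p : E) :
    ‖p‖ ≤ (∑ e ∈ W, ‖e‖) * nrm V p := by
  obtain ⟨α, h0, h1, h2⟩ := h.exists_rep p
  calc ‖p‖ = ‖∑ e ∈ W, α e • e‖ := by rw [h2]
    _ ≤ ∑ e ∈ W, ‖α e • e‖ := norm_sum_le _ _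
    _ ≤ ∑ e ∈ W, (∑ e ∈ W, ‖e‖) * α e := Finset.sum_le_sum fun e he => by
        rw [norm_smul, Real.norm_of_nonneg (h0 e he), mul_comm]
        exact mul_le_mul_of_nonneg_right
          (Finset.single_le_sum (fun y _ => norm_nonneg y) he) (h0 e he)
    _ = (∑ e ∈ W, ‖e‖) * nrm V p := by rw [← Finset.mul_sum, h1]

/-- In a representation with total mass `r`, a point `x` of `V` that pairs to `r` pairs to `1` with
every point of the support. -/
theorem CLPair.eq_one_of_rep {V W : Finset E} (h : CLPair V W) {α : E → ℝ}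
    (h0 : ∀ e ∈ W, 0 ≤ α e) {x : E} (hx : x ∈ V)
    (hxp : inner ℝ (∑ e ∈ W, α e • e) x = ∑ e ∈ W, α e) {e : E} (he : e ∈ W) (hα : α e ≠ 0) :
    inner ℝ e x = (1 : ℝ) := by
  rw [inner_sum_smul] at hxp
  have hsum : ∑ f ∈ W, α f * (1 - inner ℝ f x) = 0 := by
    simp_rw [mul_sub, mul_one]
    rw [Finset.sum_sub_distrib, hxp, sub_self]
  have := (Finset.sum_eq_zero_iff_of_nonneg fun f hf =>
    mul_nonneg (h0 f hf) (sub_nonneg.2 (h.le_one hf hx))).1 hsum e he
  rcases mul_eq_zero.1 this with h1 | h1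
  · exact absurd h1 hα
  · linarith

/-- A vector of positive norm has a point of `W` in its face. -/
theorem CLPair.exists_support {V W : Finset E} (h : CLPair V W) {u : E} (hu : nrm V u ≠ 0) :
    ∃ e ∈ W, ∀ x ∈ V, inner ℝ u x = nrm V u → inner ℝ e x = (1 : ℝ) := by
  obtain ⟨α, h0, h1, h2⟩ := h.exists_rep u
  obtain ⟨e, he, hα⟩ : ∃ e ∈ W, α e ≠ 0 := by
    by_contra hcon
    push Not at hcon
    exact hu (by rw [← h1]; exact Finset.sum_eq_zero hcon)
  exact ⟨e, he, fun x hx hux => h.eq_one_of_rep h0 hx (by rw [h2, h1, hux]) he hα⟩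

end Vale.Agent.P248Z.Eq
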