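import Vale.Agent.P248Z.Eq.Basic
import Mathlib.Analysis.Normed.Module.FiniteDimension

/-! From medians inside the cone over one facet (for a polytope and for its polar) to the face
condition of Hanner and to medians of all triples. -/

namespace Vale.Agent.P248Z.Eq

open Filter Topology

variable {E : Type*} [NormedAddCommGroup E] [InnerProductSpace ℝ E]

/-- Medians of `0, a, c` exist, inside the cone over a facet, when `a, c` lie in that cone. -/
def LocMedian (V : Finset E) : Prop :=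
  ∀ w ∈ V, ∀ a c : E, inner ℝ a w = nrm V a → inner ℝ c w = nrm V c →
    ∃ z, inner ℝ z w = nrm V z ∧ inner ℝ (a - z) w = nrm V (a - z) ∧
      inner ℝ (c - z) w = nrm V (c - z) ∧ nrm V (a - c) = nrm V (a - z) + nrm V (c - z)

/-- `x` pairs to `1` with every point of `F`. -/
def Star (F : Finset E) (x : E) : Prop := ∀ f ∈ F, inner ℝ f x = (1 : ℝ)

/-- `e` lies in the face generated by `F`. -/
def Cl (V F : Finset E) (e : E) : Prop := ∀ x ∈ V, Star F x → inner ℝ e x = (1 : ℝ)

theorem Cl.of_mem {V F : Finset E} {e : E} (he : e ∈ F) : Cl V F e := fun _ _ hx => hx e he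

theorem inner_sum_eq_card {F : Finset E} {x : E} (hx : Star F x) :
    inner ℝ (∑ f ∈ F, f) x = (F.card : ℝ) := by
  rw [sum_inner, Finset.sum_congr rfl hx]
  simp

theorem CLPair.inner_sum_le_card {V W F : Finset E} (h : CLPair V W) (hF : F ⊆ W) {x : E}
    (hx : x ∈ V) : inner ℝ (∑ f ∈ F, f) x ≤ (F.card : ℝ) := by
  rw [sum_inner]
  calc ∑ f ∈ F, inner ℝ f x ≤ ∑ _f ∈ F, (1 : ℝ) :=
        Finset.sum_le_sum fun f hf => h.le_one (hF hf) hx
    _ = F.card := by simp

theorem CLPair.star_of_inner_sum {V W F : Finset E} (h : CLPair V W) (hF : F ⊆ W) {x : E}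
    (hx : x ∈ V) (hsum : (F.card : ℝ) ≤ inner ℝ (∑ f ∈ F, f) x) : Star F x := by
  intro f hf
  have h1 : ∑ g ∈ F, (1 - inner ℝ g x) = 0 := by
    have := h.inner_sum_le_card hF hx
    rw [sum_inner] at hsum this
    rw [Finset.sum_sub_distrib]
    simp only [Finset.sum_const, nsmul_eq_mul, mul_one]
    linarith
  have := (Finset.sum_eq_zero_iff_of_nonneg fun g hg =>
    sub_nonneg.2 (h.le_one (hF hg) hx)).1 h1 f hf
  linarith

theorem CLPair.nrm_sum_le_card {V W F : Finset E} (h : CLPair V W) (hF : F ⊆ W) :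
    nrm V (∑ f ∈ F, f) ≤ (F.card : ℝ) :=
  nrm_le h.neV fun _ hx => h.inner_sum_le_card hF hx

/-- If `a` is normed by `x₀` through `z`, every functional norming `a` norms `z` and `a - z`. -/
theorem split_norming {V : Finset E} {a z x₀ x : E} (hx : x ∈ V)
    (hz : inner ℝ z x₀ = nrm V z) (haz : inner ℝ (a - z) x₀ = nrm V (a - z))
    (hax : inner ℝ a x₀ ≤ inner ℝ a x) :
    inner ℝ z x = nrm V z ∧ inner ℝ (a - z) x = nrm V (a - z) := by
  have h1 := le_nrm z hx
  have h2 := le_nrm (a - z) hx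
  rw [inner_sub_left] at haz h2 ⊢
  constructor <;> linarith

/-- Disjoint faces inside one facet are separated by a pair of opposite facets. -/
theorem CLPair.lemmaA {V W : Finset E} (h : CLPair V W) (hm : LocMedian V) {F₁ F₂ : Finset E}
    (h₁ : F₁ ⊆ W) (h₂ : F₂ ⊆ W) {x₀ : E} (hx₀ : x₀ ∈ V) (s₁ : Star F₁ x₀) (s₂ : Star F₂ x₀)
    (hd : ∀ e ∈ W, Cl V F₁ e → ¬ Cl V F₂ e) : ∃ x ∈ V, Star F₁ x ∧ Star F₂ (-x) := by
  set a := ∑ f ∈ F₁, f with ha
  set c := ∑ f ∈ F₂, f with hc
  have ha0 : inner ℝ a x₀ = (F₁.card : ℝ) := inner_sum_eq_card s₁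
  have hc0 : inner ℝ c x₀ = (F₂.card : ℝ) := inner_sum_eq_card s₂
  have hna : inner ℝ a x₀ = nrm V a :=
    le_antisymm (le_nrm a hx₀) (ha0 ▸ h.nrm_sum_le_card h₁)
  have hnc : inner ℝ c x₀ = nrm V c :=
    le_antisymm (le_nrm c hx₀) (hc0 ▸ h.nrm_sum_le_card h₂)
  obtain ⟨z, hz, haz, hcz, hac⟩ := hm x₀ hx₀ a c hna hnc
  have hz0 : nrm V z = 0 := by
    by_contra hne
    obtain ⟨e, he, hex⟩ := h.exists_support hne
    refine hd e he (fun x hx hs => hex x hx ?_) (fun x hx hs => hex x hx ?_)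
    · exact (split_norming hx hz haz (by rw [ha0, inner_sum_eq_card hs])).1
    · exact (split_norming hx hz hcz (by rw [hc0, inner_sum_eq_card hs])).1
  obtain ⟨x, hx, hxac⟩ := exists_eq_nrm h.neV (a - c)
  rw [inner_sub_left] at haz hcz hxac
  have e1 := h.inner_sum_le_card h₁ hx
  have e2 := h.inner_sum_le_card h₂ (h.negV x hx)
  rw [inner_neg_right] at e2
  refine ⟨x, hx, h.star_of_inner_sum h₁ hx ?_, h.star_of_inner_sum h₂ (h.negV x hx) ?_⟩
  · rw [← ha] at e1 ⊢
    rw [← hc] at e2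
    linarith
  · rw [inner_neg_right]
    rw [← ha] at e1
    rw [← hc] at e2 ⊢
    linarith

/-- If the sum of two points of `V` in the star of `F₁` vanishes on the face generated by `F₂`,
then some point of `V` in the star of `F₁` is constant on `F₂`. -/
theorem CLPair.lemmaC {V W : Finset E} (h : CLPair V W) (hm : LocMedian W) {F₁ F₂ : Finset E}
    (h₁ : F₁ ⊆ W) (h₂ : F₂ ⊆ W) {e₁ e₀ : E} (he₁ : e₁ ∈ F₁) (he₀ : e₀ ∈ F₂)
    {x₁ x₂ : E} (hx₁ : x₁ ∈ V) (hx₂ : x₂ ∈ V) (s₁ : Star F₁ x₁) (s₂ : Star F₁ x₂)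
    (hv : ∀ e ∈ W, Cl V F₂ e → inner ℝ e (x₁ + x₂) = (0 : ℝ)) :
    ∃ x ∈ V, Star F₁ x ∧ (Star F₂ x ∨ Star F₂ (-x)) := by
  classical
  have h' := h.symm
  set G := V.filter (Star F₂) with hG
  have hGV : G ⊆ V := Finset.filter_subset _ _
  set g := ∑ x ∈ G, x with hg
  set m := x₁ + x₂ with hmdef
  have hgF : ∀ e ∈ W, Cl V F₂ e → inner ℝ g e = (G.card : ℝ) := fun e _ hcl =>
    inner_sum_eq_card fun x hx => by
      rw [real_inner_comm]
      exact hcl x (hGV hx) (Finset.mem_filter.1 hx).2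
  have hm2 : ∀ e ∈ W, inner ℝ m e ≤ (2 : ℝ) := fun e he => by
    have a1 := h'.le_one hx₁ he
    have a2 := h'.le_one hx₂ he
    rw [hmdef, inner_add_left]
    linarith
  have hmF : ∀ e ∈ W, Cl V F₂ e → inner ℝ m e = (0 : ℝ) := fun e he hcl => by
    rw [real_inner_comm]
    exact hv e he hcl
  have hm1 : ∀ e ∈ F₁, inner ℝ m e = (2 : ℝ) := fun e he => by
    rw [hmdef, real_inner_comm, inner_add_right, s₁ e he, s₂ e he]
    norm_num
  have hp_le : ∀ e ∈ W, inner ℝ (g + m) e ≤ (G.card : ℝ) := fun e he => by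
    rw [inner_add_left]
    by_cases hcl : Cl V F₂ e
    · rw [hgF e he hcl, hmF e he hcl, add_zero]
    · obtain ⟨x, hx, hs, hne⟩ : ∃ x ∈ V, Star F₂ x ∧ inner ℝ e x ≠ (1 : ℝ) := by
        by_contra hcon
        push Not at hcon
        exact hcl hcon
      have hxG : x ∈ G := Finset.mem_filter.2 ⟨hx, hs⟩
      have hneg : inner ℝ x e = (-1 : ℝ) := by
        rw [real_inner_comm]
        exact (h.sign e he x hx).resolve_left hne
      have hsplit : g = x + ∑ y ∈ G.erase x, y := by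
        rw [hg, Finset.add_sum_erase _ (fun y => y) hxG]
      have hrest := h'.inner_sum_le_card ((Finset.erase_subset x G).trans hGV) he
      rw [Finset.card_erase_of_mem hxG, Nat.cast_sub (Finset.card_pos.2 ⟨x, hxG⟩)] at hrest
      have := hm2 e he
      rw [hsplit, inner_add_left, hneg]
      push_cast at hrest
      linarith
  have he₀W := h₂ he₀
  have hp0 : ∀ e ∈ F₂, inner ℝ (g + m) e = (G.card : ℝ) := fun e he => by
    rw [inner_add_left, hgF e (h₂ he) (Cl.of_mem he), hmF e (h₂ he) (Cl.of_mem he), add_zero]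
  have hq0 : ∀ e ∈ F₂, inner ℝ g e = (G.card : ℝ) := fun e he => hgF e (h₂ he) (Cl.of_mem he)
  have hnp : inner ℝ (g + m) e₀ = nrm W (g + m) :=
    le_antisymm (le_nrm _ he₀W) (by rw [hp0 e₀ he₀]; exact nrm_le h.neW hp_le)
  have hnq : inner ℝ g e₀ = nrm W g :=
    le_antisymm (le_nrm _ he₀W) (by rw [hq0 e₀ he₀]; exact h'.nrm_sum_le_card hGV)
  obtain ⟨z, hz, hpz, hqz, hpq⟩ := hm e₀ he₀W (g + m) g hnp hnq
  have hmm : g + m - g = m := by abel
  rw [hmm] at hpq
  have hnm : nrm W m = 2 :=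
    le_antisymm (nrm_le h.neW hm2) (by rw [← hm1 e₁ he₁]; exact le_nrm _ (h₁ he₁))
  have hF1 : ∀ e ∈ F₁, inner ℝ (g + m - z) e = nrm W (g + m - z) ∧
      inner ℝ (g - z) (-e) = nrm W (g - z) := fun e he => by
    have a1 := le_nrm (g + m - z) (h₁ he)
    have a2 := le_nrm (g - z) (h.negW e (h₁ he))
    have a3 := hm1 e he
    have a4 : inner ℝ (g + m - z) e + inner ℝ (g - z) (-e) = inner ℝ m e := by
      rw [inner_neg_right, inner_sub_left, inner_sub_left, inner_add_left]
      ring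
    constructor <;> linarith
  by_cases hp : nrm W (g + m - z) = 0
  · have hq : nrm W (g - z) ≠ 0 := by
      rw [hnm, hp, zero_add] at hpq
      rw [← hpq]
      norm_num
    obtain ⟨x, hx, hxe⟩ := h'.exists_support hq
    refine ⟨-x, h.negV x hx, fun e he => ?_, Or.inr fun e he => ?_⟩
    · have := hxe (-e) (h.negW e (h₁ he)) (hF1 e he).2
      rwa [inner_neg_right, real_inner_comm, ← inner_neg_right] at this
    · rw [neg_neg, real_inner_comm]
      exact hxe e (h₂ he)
        (split_norming (h₂ he) hz hqz (by rw [hq0 e₀ he₀, hq0 e he])).2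
  · obtain ⟨x, hx, hxe⟩ := h'.exists_support hp
    refine ⟨x, hx, fun e he => ?_, Or.inl fun e he => ?_⟩
    · rw [real_inner_comm]
      exact hxe e (h₁ he) (hF1 e he).1
    · rw [real_inner_comm]
      exact hxe e (h₂ he)
        (split_norming (h₂ he) hz hpz (by rw [hp0 e₀ he₀, hp0 e he])).2

/-- The face condition of Hanner. -/
def HannerFace (V W : Finset E) : Prop :=
  ∀ F₁ F₂ : Finset E, F₁ ⊆ W → F₂ ⊆ W → (∃ x ∈ V, Star F₁ x) → (∃ x ∈ V, Star F₂ x) →
    (∀ e ∈ W, Cl V F₁ e → ¬ Cl V F₂ e) → ∃ x ∈ V, Star F₁ x ∧ Star F₂ (-x)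

theorem CLPair.hannerFace {V W : Finset E} (h : CLPair V W) (hmV : LocMedian V)
    (hmW : LocMedian W) : HannerFace V W := by
  classical
  intro F₁ F₂ h₁ h₂ g₁ g₂ hd
  have h' := h.symm
  by_contra hJm
  have hJp : ¬ ∃ x ∈ V, Star F₁ x ∧ Star F₂ x := fun ⟨x, hx, s₁, s₂⟩ =>
    hJm (h.lemmaA hmV h₁ h₂ hx s₁ s₂ hd)
  by_cases hI : ∃ e ∈ W, Cl V F₁ e ∧ Cl V F₂ (-e)
  · obtain ⟨e, he, c₁, c₂⟩ := hI
    obtain ⟨e', he', t₁, t₂⟩ := h'.lemmaA hmW (F₁ := V.filter (Star F₁))
      (F₂ := V.filter fun x => Star F₂ (-x)) (Finset.filter_subset _ _) (Finset.filter_subset _ _)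
      he (fun x hx => by
        rw [real_inner_comm]
        exact c₁ x (Finset.mem_filter.1 hx).1 (Finset.mem_filter.1 hx).2)
      (fun x hx => by
        have := c₂ (-x) (h.negV x (Finset.mem_filter.1 hx).1) (Finset.mem_filter.1 hx).2
        rwa [inner_neg_neg, real_inner_comm] at this)
      (fun x hx d₁ d₂ => hJm ⟨x, hx, fun f hf => by
        rw [real_inner_comm]
        refine d₁ f (h₁ hf) fun y hy => ?_
        rw [real_inner_comm]
        exact (Finset.mem_filter.1 hy).2 f hf, fun f hf => by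
        have := d₂ (-f) (h.negW f (h₂ hf)) fun y hy => by
          have := (Finset.mem_filter.1 hy).2 f hf
          rwa [inner_neg_right, real_inner_comm, ← inner_neg_right] at this
        rwa [inner_neg_right, real_inner_comm, ← inner_neg_right] at this⟩)
    refine hd e' he' (fun x hx hs => ?_) (fun x hx hs => ?_)
    · rw [real_inner_comm]
      exact t₁ x (Finset.mem_filter.2 ⟨hx, hs⟩)
    · have := t₂ (-x) (Finset.mem_filter.2 ⟨h.negV x hx, by rwa [neg_neg]⟩)
      rwa [inner_neg_neg, real_inner_comm] at this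
  · -- neither the face of `F₂` nor its opposite meets the face of `F₁`
    obtain ⟨y₂, hy₂, sy₂⟩ := g₂
    rcases F₁.eq_empty_or_nonempty with rfl | ⟨e₁, he₁⟩
    · exact hJp ⟨y₂, hy₂, fun f hf => absurd hf (Finset.notMem_empty f), sy₂⟩
    obtain ⟨y₁, hy₁, sy₁⟩ := g₁
    rcases F₂.eq_empty_or_nonempty with rfl | ⟨e₀, he₀⟩
    · exact hJp ⟨y₁, hy₁, sy₁, fun f hf => absurd hf (Finset.notMem_empty f)⟩
    set P : E → Finset E := fun x => W.filter fun e => Cl V F₂ e ∧ inner ℝ e x = (1 : ℝ) with hP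
    have hPW : ∀ x, P x ⊆ W := fun x => Finset.filter_subset _ _
    have hPcl : ∀ x e, Cl V (P x) e → Cl V F₂ e := fun x e hcl y hy hs =>
      hcl y hy fun f hf => (Finset.mem_filter.1 hf).2.1 y hy hs
    have stepA : ∀ x ∈ V, Star F₁ x → ∃ x' ∈ V, Star F₁ x' ∧ P x ⊆ P (-x') := by
      intro x hx hs
      obtain ⟨x', hx', t₁, t₂⟩ := h.lemmaA hmV h₁ (hPW x) hx hs
        (fun f hf => (Finset.mem_filter.1 hf).2.2)
        (fun e he c₁ c₂ => hd e he c₁ (hPcl x e c₂))
      exact ⟨x', hx', t₁, fun f hf => Finset.mem_filter.2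
        ⟨hPW x hf, (Finset.mem_filter.1 hf).2.1, t₂ f hf⟩⟩
    have stepB : ∀ x ∈ V, Star F₁ x → ∃ x' ∈ V, Star F₁ x' ∧ P (-x) ⊆ P x' := by
      intro x hx hs
      obtain ⟨x', hx', t₁, t₂⟩ := h.lemmaA hmV h₁ (F₂ := (P (-x)).image fun f => -f)
        (fun f hf => by
          obtain ⟨g, hg, rfl⟩ := Finset.mem_image.1 hf
          exact h.negW g (hPW _ hg)) hx hs
        (fun f hf => by
          obtain ⟨g, hg, rfl⟩ := Finset.mem_image.1 hf
          have := (Finset.mem_filter.1 hg).2.2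
          rwa [inner_neg_right, ← inner_neg_left] at this)
        (fun e he c₁ c₂ => hI ⟨e, he, c₁, hPcl (-x) (-e) fun y hy hsy => by
          have := c₂ (-y) (h.negV y hy) fun f hf => by
            obtain ⟨g, hg, rfl⟩ := Finset.mem_image.1 hf
            rw [inner_neg_neg]
            exact hsy g hg
          rwa [inner_neg_right, ← inner_neg_left] at this⟩)
      refine ⟨x', hx', t₁, fun f hf => Finset.mem_filter.2
        ⟨hPW _ hf, (Finset.mem_filter.1 hf).2.1, ?_⟩⟩
      have := t₂ (-f) (Finset.mem_image.2 ⟨f, hf, rfl⟩)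
      rwa [inner_neg_neg] at this
    obtain ⟨x, hxG, hmax⟩ := Finset.exists_max_image (V.filter (Star F₁)) (fun x => (P x).card)
      ⟨y₁, Finset.mem_filter.2 ⟨hy₁, sy₁⟩⟩
    obtain ⟨hx, sx⟩ := Finset.mem_filter.1 hxG
    obtain ⟨x', hx', sx', i₁⟩ := stepA x hx sx
    obtain ⟨x'', hx'', sx'', i₂⟩ := stepB x' hx' sx'
    have heq : P x = P (-x') := Finset.eq_of_subset_of_card_le i₁
      ((Finset.card_le_card i₂).trans (hmax x'' (Finset.mem_filter.2 ⟨hx'', sx''⟩)))
    obtain ⟨y, hy, sy, hor⟩ := h.lemmaC hmW h₁ h₂ he₁ he₀ hx hx' sx sx' fun e he hcl => by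
      have hiff : inner ℝ e x = (1 : ℝ) ↔ inner ℝ e (-x') = (1 : ℝ) := by
        constructor
        · intro h1
          have : e ∈ P x := Finset.mem_filter.2 ⟨he, hcl, h1⟩
          rw [heq] at this
          exact (Finset.mem_filter.1 this).2.2
        · intro h1
          have : e ∈ P (-x') := Finset.mem_filter.2 ⟨he, hcl, h1⟩
          rw [← heq] at this
          exact (Finset.mem_filter.1 this).2.2
      rw [inner_neg_right] at hiff
      rw [inner_add_right]
      rcases h.sign e he x hx with a | a <;> rcases h.sign e he x' hx' with b | b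
      · have := hiff.1 a
        linarith
      · linarith
      · linarith
      · have := hiff.2 (by linarith)
        linarith
    rcases hor with hor | hor
    · exact hJp ⟨y, hy, sy, hor⟩
    · exact hJm ⟨y, hy, sy, hor⟩

/-- Moving a little in the direction of a vertex of the face of `u` lowers the norm at unit
speed. -/
theorem CLPair.eventually_nrm_sub {V W : Finset E} (h : CLPair V W) {u e : E} (he : e ∈ W)
    (hue : ∀ x ∈ V, inner ℝ u x = nrm V u → inner ℝ e x = (1 : ℝ)) :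
    ∀ᶠ t in 𝓝[>] (0 : ℝ), nrm V (u - t • e) ≤ nrm V u - t := by
  have key : ∀ x ∈ V, ∀ᶠ t in 𝓝[>] (0 : ℝ), inner ℝ (u - t • e) x ≤ nrm V u - t := by
    intro x hx
    rcases (le_nrm u hx).eq_or_lt with h1 | h1
    · refine Eventually.of_forall fun t => ?_
      rw [inner_sub_left, real_inner_smul_left, hue x hx h1, h1, mul_one]
    · have hgap : 0 < (nrm V u - inner ℝ u x) / 2 := by linarith
      filter_upwards [Ioo_mem_nhdsGT hgap] with t ht
      have h2 := h.neg_one_le he hx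
      rw [inner_sub_left, real_inner_smul_left]
      nlinarith [ht.1, ht.2]
  filter_upwards [(eventually_all_finset V).2 key] with t ht
  exact nrm_le h.neV ht

/-- The face condition gives medians of all triples. -/
theorem CLPair.median [FiniteDimensional ℝ E] {V W : Finset E} (h : CLPair V W)
    (hf : HannerFace V W) (a c : E) :
    ∃ z, nrm V a = nrm V z + nrm V (a - z) ∧ nrm V c = nrm V z + nrm V (c - z) ∧
      nrm V (a - c) = nrm V (a - z) + nrm V (c - z) := by
  classical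
  have hcont := continuous_nrm h.neV
  set S : Set E := {z | nrm V a = nrm V z + nrm V (a - z) ∧ nrm V c = nrm V z + nrm V (c - z)}
    with hS
  have hSc : IsClosed S :=
    (isClosed_eq continuous_const (by fun_prop)).inter (isClosed_eq continuous_const (by fun_prop))
  have hSb : Bornology.IsBounded S := by
    refine (Metric.isBounded_closedBall (x := (0 : E)) (r := (∑ e ∈ W, ‖e‖) * nrm V a)).subset
      fun z hz => ?_
    rw [mem_closedBall_zero_iff]
    refine (h.norm_le z).trans (mul_le_mul_of_nonneg_left ?_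
      (Finset.sum_nonneg fun _ _ => norm_nonneg _))
    have := nrm_nonneg h.neV h.negV (a - z)
    linarith [hz.1]
  have hS0 : (0 : E) ∈ S := by
    constructor <;> simp [nrm_zero h.neV]
  have : ProperSpace E := FiniteDimensional.proper ℝ E
  obtain ⟨z, hz, hmax⟩ := (Metric.isCompact_of_isClosed_isBounded hSc hSb).exists_isMaxOn
    ⟨0, hS0⟩ hcont.continuousOn
  refine ⟨z, hz.1, hz.2, ?_⟩
  obtain ⟨α, hα0, hα1, hα2⟩ := h.exists_rep (a - z)
  obtain ⟨γ, hγ0, hγ1, hγ2⟩ := h.exists_rep (c - z)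
  have starIff : ∀ (β : E → ℝ) (u : E), (∀ e ∈ W, 0 ≤ β e) → ∑ e ∈ W, β e = nrm V u →
      ∑ e ∈ W, β e • e = u → ∀ x ∈ V,
      (Star (W.filter fun e => β e ≠ 0) x ↔ inner ℝ u x = nrm V u) := by
    intro β u h0 h1 h2 x hx
    constructor
    · intro hs
      rw [← h1, ← h2, inner_sum_smul]
      refine Finset.sum_congr rfl fun e he => ?_
      by_cases hb : β e = 0
      · simp [hb]
      · rw [hs e (Finset.mem_filter.2 ⟨he, hb⟩), mul_one]
    · intro hu f hf
      exact h.eq_one_of_rep h0 hx (by rw [h2, h1, hu]) (Finset.mem_filter.1 hf).1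
        (Finset.mem_filter.1 hf).2
  have sa := starIff α (a - z) hα0 hα1 hα2
  have sc := starIff γ (c - z) hγ0 hγ1 hγ2
  obtain ⟨x, hx, t₁, t₂⟩ := hf (W.filter fun e => α e ≠ 0) (W.filter fun e => γ e ≠ 0)
    (Finset.filter_subset _ _) (Finset.filter_subset _ _)
    (by
      obtain ⟨x, hx, hx'⟩ := exists_eq_nrm h.neV (a - z)
      exact ⟨x, hx, (sa x hx).2 hx'⟩)
    (by
      obtain ⟨x, hx, hx'⟩ := exists_eq_nrm h.neV (c - z)
      exact ⟨x, hx, (sc x hx).2 hx'⟩)
    (fun e he c₁ c₂ => by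
      have ev₁ := h.eventually_nrm_sub (u := a - z) he fun x hx hu => c₁ x hx ((sa x hx).2 hu)
      have ev₂ := h.eventually_nrm_sub (u := c - z) he fun x hx hu => c₂ x hx ((sc x hx).2 hu)
      obtain ⟨t, ⟨k₁, k₂⟩, ht⟩ := ((ev₁.and ev₂).and self_mem_nhdsWithin).exists
      have ht0 : 0 < t := ht
      have hte : nrm V (t • e) ≤ t := nrm_le h.neV fun x hx => by
        rw [real_inner_smul_left]
        have := h.le_one he hx
        nlinarith
      have b0 := nrm_add_le h.neV z (t • e)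
      have r₁ : a - (z + t • e) = a - z - t • e := by abel
      have r₂ : c - (z + t • e) = c - z - t • e := by abel
      have b1 := nrm_add_le h.neV (z + t • e) (a - (z + t • e))
      have b2 := nrm_add_le h.neV (z + t • e) (c - (z + t • e))
      rw [add_sub_cancel] at b1 b2
      rw [← r₁] at k₁
      rw [← r₂] at k₂
      have hz1 := hz.1
      have hz2 := hz.2
      have hmem : z + t • e ∈ S := ⟨by linarith, by linarith⟩
      have : nrm V (z + t • e) ≤ nrm V z := hmax hmem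
      linarith)
  have u₁ := (sa x hx).1 t₁
  have u₂ := (sc (-x) (h.negV x hx)).1 t₂
  have u₃ := le_nrm (a - c) hx
  have u₄ := nrm_sub_le h.neV h.negV (a - z) (c - z)
  have r : a - z - (c - z) = a - c := by abel
  rw [r] at u₄
  rw [← r, inner_sub_left] at u₃
  rw [r] at u₃
  rw [inner_neg_right] at u₂
  linarith

end Vale.Agent.P248Z.Eq
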