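import Mathlib.Analysis.Calculus.LHopital
import Mathlib.Analysis.SpecialFunctions.Trigonometric.ArctanDeriv
import Mathlib.Analysis.SpecialFunctions.Pow.Asymptotics
import Mathlib.Analysis.SpecialFunctions.Sqrt
import Mathlib.Analysis.Convex.Function
import Mathlib.Tactic

/-! The properties of the height function of the lens that the equality case uses. -/

namespace Vale.Agent.P248Z.Eq

open Filter Topology Real

/-- An even concave profile on `[-1, 1]`, vanishing at the ends, where it is regularly varying of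
index one. -/
structure Profile (lam : ℝ → ℝ) : Prop where
  even : ∀ q, lam (-q) = lam q
  concave : ConcaveOn ℝ (Set.Icc (-1) 1) lam
  one : lam 1 = 0
  pos : ∀ q ∈ Set.Ioo (-1 : ℝ) 1, 0 < lam q
  ratio : ∀ s : ℝ, 0 < s → Tendsto (fun d => lam (1 - d * s) / lam (1 - d)) (𝓝[>] 0) (𝓝 s)
  small : Tendsto (fun d => lam (1 - d) / √d) (𝓝[>] 0) (𝓝 0)

theorem tendsto_mul_nhdsGT {s : ℝ} (hs : 0 < s) :
    Tendsto (fun d : ℝ => d * s) (𝓝[>] 0) (𝓝[>] 0) := by
  refine tendsto_nhdsWithin_iff.2 ⟨?_, ?_⟩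
  · have : Tendsto (fun d : ℝ => d * s) (𝓝 0) (𝓝 (0 * s)) := (continuous_id.mul continuous_const).tendsto 0
    rw [zero_mul] at this
    exact this.mono_left nhdsWithin_le_nhds
  · filter_upwards [self_mem_nhdsWithin] with d hd
    exact mul_pos hd hs

theorem tendsto_log_tan_sub :
    Tendsto (fun d : ℝ => log (tan (π * d / 4)) - log d) (𝓝[>] 0) (𝓝 (log (π / 4))) := by
  have hder : HasDerivAt (fun d : ℝ => tan (π * d / 4)) (π / 4) 0 := by
    have h1 : HasDerivAt (fun d : ℝ => π * d / 4) (π / 4) 0 := by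
      simpa using ((hasDerivAt_id (0 : ℝ)).const_mul π).div_const 4
    have h2 : HasDerivAt tan (1 / cos (π * 0 / 4) ^ 2) (π * 0 / 4) :=
      hasDerivAt_tan (by simp)
    have := h2.comp (0 : ℝ) h1
    simpa [Function.comp_def] using this
  have hs := hder.tendsto_slope_zero_right
  have hpos : (π / 4 : ℝ) ≠ 0 := by positivity
  have hl := (continuousAt_log hpos).tendsto.comp hs
  refine hl.congr' ?_
  have h1 : (0 : ℝ) < 1 := one_pos
  filter_upwards [Ioo_mem_nhdsGT h1] with d hd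
  have ht : 0 < tan (π * d / 4) :=
    tan_pos_of_pos_of_lt_pi_div_two (by have := hd.1; positivity)
      (by nlinarith [pi_pos, hd.2])
  simp only [Function.comp, zero_add, mul_zero, zero_div, tan_zero, sub_zero, smul_eq_mul]
  rw [log_mul (inv_ne_zero hd.1.ne') ht.ne', log_inv]
  ring

theorem tendsto_log_tan_div {s : ℝ} (hs : 0 < s) :
    Tendsto (fun d : ℝ => log (tan (π * (d * s) / 4)) / log d) (𝓝[>] 0) (𝓝 1) := by
  have h1 := (tendsto_log_tan_sub.comp (tendsto_mul_nhdsGT hs)).add_const (log s)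
  have h2 := (h1.div_atBot tendsto_log_nhdsGT_zero).add_const 1
  rw [zero_add] at h2
  refine h2.congr' ?_
  have h01 : (0 : ℝ) < 1 := one_pos
  filter_upwards [Ioo_mem_nhdsGT h01] with d hd
  have hl : log d ≠ 0 := (log_neg hd.1 hd.2).ne
  simp only [Function.comp]
  rw [log_mul hd.1.ne' hs.ne']
  field_simp
  ring

theorem profile_of_deriv {lam : ℝ → ℝ} (hc : ContinuousOn lam (Set.Icc (-1) 1))
    (he : ∀ q, lam (-q) = lam q) (hconc : ConcaveOn ℝ (Set.Icc (-1) 1) lam) (h1 : lam 1 = 0)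
    (hpos : ∀ q ∈ Set.Ioo (-1 : ℝ) 1, 0 < lam q)
    (hd : ∀ q ∈ Set.Ioo (-1 : ℝ) 1,
      HasDerivAt lam (2 / π * log (tan (π * (1 - q) / 4))) q) : Profile lam := by
  have hder : ∀ s : ℝ, 0 < s → ∀ᶠ d in 𝓝[>] (0 : ℝ), HasDerivAt (fun d => lam (1 - d * s))
      (-(2 / π * s * log (tan (π * (d * s) / 4)))) d := by
    intro s hs
    have h2 : (0 : ℝ) < 2 := two_pos
    filter_upwards [(tendsto_mul_nhdsGT hs).eventually (Ioo_mem_nhdsGT h2)] with d hds
    have ha : HasDerivAt (fun d : ℝ => 1 - d * s) (-s) d := by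
      simpa using ((hasDerivAt_id d).mul_const s).const_sub 1
    have hb := (hd (1 - d * s) ⟨by linarith [hds.2], by linarith [hds.1]⟩).comp d ha
    rw [sub_sub_cancel] at hb
    have e : -(2 / π * s * log (tan (π * (d * s) / 4))) =
        2 / π * log (tan (π * (d * s) / 4)) * -s := by ring
    rw [e]
    exact hb
  have hlim : ∀ s : ℝ, 0 < s → Tendsto (fun d => lam (1 - d * s)) (𝓝[>] 0) (𝓝 0) := by
    intro s hs
    have h2 : (0 : ℝ) < 2 := two_pos
    have hw : ContinuousWithinAt lam (Set.Icc (-1) 1) 1 := hc 1 ⟨by norm_num, le_rfl⟩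
    have ht : Tendsto (fun d : ℝ => 1 - d * s) (𝓝[>] 0) (𝓝[Set.Icc (-1) 1] 1) := by
      refine tendsto_nhdsWithin_iff.2 ⟨?_, ?_⟩
      · have := ((tendsto_mul_nhdsGT hs).mono_right nhdsWithin_le_nhds).const_sub 1
        rwa [sub_zero] at this
      · filter_upwards [(tendsto_mul_nhdsGT hs).eventually (Ioo_mem_nhdsGT h2)] with d hds
        exact ⟨by linarith [hds.2], by linarith [hds.1]⟩
    have := hw.tendsto.comp ht
    rwa [h1] at this
  have h01 : (0 : ℝ) < 1 := one_pos
  have hne : ∀ᶠ d in 𝓝[>] (0 : ℝ), log (tan (π * (d * 1) / 4)) ≠ 0 ∧ log d ≠ 0 := by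
    have := (tendsto_log_tan_div h01).eventually (lt_mem_nhds (show (0 : ℝ) < 1 from one_pos))
    filter_upwards [this, Ioo_mem_nhdsGT h01] with d hd1 hd2
    refine ⟨fun h0 => ?_, (log_neg hd2.1 hd2.2).ne⟩
    rw [h0, zero_div] at hd1
    exact lt_irrefl _ hd1
  refine ⟨he, hconc, h1, hpos, fun s hs => ?_, ?_⟩
  · have key := HasDerivAt.lhopital_zero_nhdsGT (l := 𝓝 s) (hder s hs) (hder 1 h01)
      (by
        filter_upwards [hne] with d hd1
        have := hd1.1
        have hp := pi_pos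
        exact neg_ne_zero.2 (mul_ne_zero (by positivity) this))
      (hlim s hs) (hlim 1 h01)
      (by
        have h3 := ((tendsto_log_tan_div hs).div (tendsto_log_tan_div h01) one_ne_zero).const_mul s
        rw [div_one, mul_one] at h3
        refine h3.congr' ?_
        filter_upwards [hne] with d hd1
        have hp := pi_pos.ne'
        have a1 := hd1.1
        have a2 := hd1.2
        simp only [Pi.div_apply]
        field_simp)
    simpa only [mul_one] using key
  · have hsq : ∀ᶠ d in 𝓝[>] (0 : ℝ), HasDerivAt (fun d : ℝ => √d) (1 / (2 * √d)) d := by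
      filter_upwards [self_mem_nhdsWithin] with d hd0
      exact hasDerivAt_sqrt (ne_of_gt hd0)
    have key := HasDerivAt.lhopital_zero_nhdsGT (l := 𝓝 0) (hder 1 h01) hsq
      (by
        filter_upwards [self_mem_nhdsWithin] with d hd0
        have : 0 < √d := sqrt_pos.2 hd0
        positivity)
      (hlim 1 h01)
      (by
        have : Tendsto (fun d : ℝ => √d) (𝓝 0) (𝓝 (√0)) := continuous_sqrt.tendsto 0
        rw [sqrt_zero] at this
        exact this.mono_left nhdsWithin_le_nhds)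
      (by
        have h3 := ((tendsto_log_tan_div h01).mul
          (tendsto_log_mul_rpow_nhdsGT_zero (show (0 : ℝ) < 1 / 2 by norm_num))).const_mul
          (-(4 / π))
        rw [mul_zero, mul_zero] at h3
        refine h3.congr' ?_
        filter_upwards [hne, self_mem_nhdsWithin] with d hd1 hd0
        have hp := pi_pos.ne'
        have a2 := hd1.2
        have a3 : √d ≠ 0 := (sqrt_pos.2 hd0).ne'
        rw [← sqrt_eq_rpow]
        field_simp
        ring)
    simpa only [mul_one] using key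

theorem Profile.nonneg {lam : ℝ → ℝ} (h : Profile lam) {q : ℝ} (hq : q ∈ Set.Icc (-1 : ℝ) 1) :
    0 ≤ lam q := by
  rcases hq.1.eq_or_lt with h1 | h1
  · rw [← h1, h.even, h.one]
  rcases hq.2.eq_or_lt with h2 | h2
  · rw [h2, h.one]
  exact (h.pos q ⟨h1, h2⟩).le

theorem Profile.le_zero {lam : ℝ → ℝ} (h : Profile lam) {q : ℝ} (hq : q ∈ Set.Icc (-1 : ℝ) 1) :
    lam q ≤ lam 0 := by
  have := h.concave.2 hq (show -q ∈ Set.Icc (-1 : ℝ) 1 from ⟨by linarith [hq.2], by linarith [hq.1]⟩)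
    (show (0 : ℝ) ≤ 1 / 2 by norm_num) (show (0 : ℝ) ≤ 1 / 2 by norm_num) (by norm_num)
  rw [h.even] at this
  simp only [smul_eq_mul] at this
  have e : (1 / 2 : ℝ) * q + 1 / 2 * -q = 0 := by ring
  rw [e] at this
  linarith

theorem Profile.eq_of_eq_zero {lam : ℝ → ℝ} (h : Profile lam) {q : ℝ}
    (hq : q ∈ Set.Icc (-1 : ℝ) 1) (h0 : lam q = 0) : q = 1 ∨ q = -1 := by
  by_contra hcon
  push Not at hcon
  exact (h.pos q ⟨lt_of_le_of_ne hq.1 hcon.2.symm, lt_of_le_of_ne hq.2 hcon.1⟩).ne' h0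

/-- The lens touches the vertical lines through its ends to order better than two. -/
theorem Profile.flat {lam : ℝ → ℝ} (h : Profile lam) {κ : ℝ} (hκ : 0 < κ) :
    ∀ᶠ t in 𝓝[>] (0 : ℝ), ∀ q ∈ Set.Icc (-1 : ℝ) 1, q + t * lam q ≤ 1 + κ * t ^ 2 := by
  have hs : 0 < √κ := sqrt_pos.2 hκ
  obtain ⟨d₀, hd₀, hsub⟩ := mem_nhdsGT_iff_exists_Ioo_subset.1
    (h.small.eventually (gt_mem_nhds hs))
  have hd₀' : 0 < d₀ := hd₀
  have hM : 0 < lam 0 := h.pos 0 ⟨by norm_num, by norm_num⟩
  filter_upwards [Ioo_mem_nhdsGT (div_pos hd₀' hM)] with t ht q hq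
  have ht0 := ht.1
  have hκt : 0 ≤ κ * t ^ 2 := by positivity
  rcases hq.2.eq_or_lt with h1 | h1
  · rw [h1, h.one]
    linarith
  by_cases hd : 1 - q < d₀
  · have hdpos : 0 < 1 - q := by linarith
    have h2 : lam (1 - (1 - q)) / √(1 - q) < √κ := hsub ⟨hdpos, hd⟩
    rw [sub_sub_cancel, div_lt_iff₀ (sqrt_pos.2 hdpos)] at h2
    have h3 := sq_sqrt hdpos.le
    have h4 := sq_sqrt hκ.le
    have h5 : t * lam q ≤ t * (√κ * √(1 - q)) := mul_le_mul_of_nonneg_left h2.le ht0.le
    nlinarith [sq_nonneg (√(1 - q) - t * √κ), sq_nonneg (t * √κ), sq_nonneg (√(1 - q))]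
  · have h2 : t * lam q ≤ t * lam 0 := mul_le_mul_of_nonneg_left (h.le_zero hq) ht0.le
    have h3 : t * lam 0 < d₀ := (lt_div_iff₀ hM).1 ht.2
    linarith

end Vale.Agent.P248Z.Eq
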