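import Vale.Agent.P248Z.Eq.Comb
import Vale.Agent.P248Z.Eq.Profile
import Mathlib.Analysis.Convex.Jensen
import Mathlib.Analysis.LocallyConvex.Separation
import Mathlib.Analysis.InnerProductSpace.Dual

/-! The contact property near a vertex gives medians inside the cone over the dual facet. -/

namespace Vale.Agent.P248Z.Eq

open Filter Topology

variable {E : Type*} [NormedAddCommGroup E] [InnerProductSpace ℝ E]

/-- The contact property: for `x ∈ K`, every `v ∈ L` lies in the hull of `0` and the contact set of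
some `y` with `⟪b, y⟫ ≤ lam ⟪b, x⟫` on `L`. -/
def Contact (lam : ℝ → ℝ) (K L : Set E) : Prop :=
  ∀ x ∈ K, ∀ v ∈ L, ∃ y, (∀ b ∈ L, inner ℝ b y ≤ lam (inner ℝ b x)) ∧
    v ∈ convexHull ℝ (insert 0 {b | b ∈ L ∧ inner ℝ b y = lam (inner ℝ b x)})

theorem CLPair.rep_contact {V W : Finset E} (h : CLPair V W) {lam : ℝ → ℝ} (hp : Profile lam)
    (hc : Contact lam (convexHull ℝ (V : Set E)) (convexHull ℝ (W : Set E))) {x : E}
    (hx : ∀ e ∈ W, inner ℝ e x ≤ (1 : ℝ)) (v : E) :
    ∃ (y : E) (μ : E → ℝ), (∀ e ∈ W, inner ℝ e y ≤ lam (inner ℝ e x)) ∧ (∀ e ∈ W, 0 ≤ μ e) ∧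
      ∑ e ∈ W, μ e ≤ nrm V v ∧ ∑ e ∈ W, μ e • e = v ∧
      ∑ e ∈ W, μ e * lam (inner ℝ e x) ≤ inner ℝ v y := by
  have hIcc : ∀ e ∈ W, inner ℝ e x ∈ Set.Icc (-1 : ℝ) 1 := fun e he => by
    have := hx (-e) (h.negW e he)
    rw [inner_neg_left] at this
    exact ⟨by linarith, hx e he⟩
  rcases (nrm_nonneg h.neV h.negV v).eq_or_lt with h0 | hpos
  · refine ⟨0, fun _ => 0, fun e he => ?_, fun _ _ => le_rfl, by simp [← h0], ?_, by simp⟩
    · rw [inner_zero_right]
      exact hp.nonneg (hIcc e he)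
    · simp [h.eq_zero_of_nrm h0.symm]
  have hmem : (nrm V v)⁻¹ • v ∈ convexHull ℝ (W : Set E) := h.hullW _ fun z hz => by
    have := le_nrm ((nrm V v)⁻¹ • v) hz
    rwa [nrm_smul h.neV (inv_nonneg.2 hpos.le), inv_mul_cancel₀ hpos.ne'] at this
  obtain ⟨y, hy, hv⟩ := hc x (h.hullV x hx) _ hmem
  set A : Set E := {u | ∃ μ : E → ℝ, (∀ e ∈ W, 0 ≤ μ e) ∧ ∑ e ∈ W, μ e ≤ 1 ∧
    ∑ e ∈ W, μ e • e = u ∧ ∑ e ∈ W, μ e * lam (inner ℝ e x) ≤ inner ℝ u y} with hA
  have hAconv : Convex ℝ A := by
    rintro u ⟨μ, μ0, μ1, μ2, μ3⟩ u' ⟨ν, ν0, ν1, ν2, ν3⟩ a b ha hb hab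
    refine ⟨fun e => a * μ e + b * ν e,
      fun e he => add_nonneg (mul_nonneg ha (μ0 e he)) (mul_nonneg hb (ν0 e he)), ?_, ?_, ?_⟩
    · rw [Finset.sum_add_distrib, ← Finset.mul_sum, ← Finset.mul_sum]
      nlinarith
    · simp_rw [add_smul, mul_smul]
      rw [Finset.sum_add_distrib, ← Finset.smul_sum, ← Finset.smul_sum, μ2, ν2]
    · simp_rw [add_mul, mul_assoc]
      rw [Finset.sum_add_distrib, ← Finset.mul_sum, ← Finset.mul_sum, inner_add_left,
        real_inner_smul_left, real_inner_smul_left]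
      exact add_le_add (mul_le_mul_of_nonneg_left μ3 ha) (mul_le_mul_of_nonneg_left ν3 hb)
  have hsub : insert 0 {b | b ∈ convexHull ℝ (W : Set E) ∧ inner ℝ b y = lam (inner ℝ b x)} ⊆ A := by
    rintro b (rfl | ⟨hb, hby⟩)
    · exact ⟨fun _ => 0, fun _ _ => le_rfl, by simp, by simp, by simp⟩
    · obtain ⟨s, s0, s1, s2⟩ := Finset.mem_convexHull'.1 hb
      refine ⟨s, s0, s1.le, s2, ?_⟩
      have := hp.concave.le_map_sum (p := fun e => inner ℝ e x) s0 s1 hIcc
      simp only [smul_eq_mul] at this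
      rwa [← inner_sum_smul, s2, ← hby] at this
  obtain ⟨μ, μ0, μ1, μ2, μ3⟩ := convexHull_min hsub hAconv hv
  refine ⟨y, fun e => nrm V v * μ e, fun e he => hy e (subset_convexHull ℝ _ he),
    fun e he => mul_nonneg hpos.le (μ0 e he), ?_, ?_, ?_⟩
  · rw [← Finset.mul_sum]
    nlinarith
  · simp_rw [mul_smul]
    rw [← Finset.smul_sum, μ2, smul_smul, mul_inv_cancel₀ hpos.ne', one_smul]
  · simp_rw [mul_assoc]
    rw [← Finset.mul_sum]
    have := mul_le_mul_of_nonneg_left μ3 hpos.le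
    rwa [real_inner_smul_left, ← mul_assoc, mul_inv_cancel₀ hpos.ne', one_mul] at this

/-- A nonnegative combination of points of the facet of `w` lies in the cone over it. -/
theorem CLPair.cone_of_rep {V W : Finset E} (h : CLPair V W) {w : E} (hw : w ∈ V) {β : E → ℝ}
    (h0 : ∀ e ∈ W, 0 ≤ β e) :
    inner ℝ (∑ e ∈ W, (β e * ((1 + inner ℝ e w) / 2)) • e) w =
      nrm V (∑ e ∈ W, (β e * ((1 + inner ℝ e w) / 2)) • e) := by
  refine le_antisymm (le_nrm _ hw) (nrm_le h.neV fun x hx => ?_)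
  rw [inner_sum_smul, inner_sum_smul]
  refine Finset.sum_le_sum fun e he => ?_
  have h1 := h.le_one he hx
  have h2 := h0 e he
  rcases h.sign e he w hw with a | a <;> rw [a]
  · nlinarith
  · simp

theorem CLPair.cone_of_rep_neg {V W : Finset E} (h : CLPair V W) {w : E} (hw : w ∈ V) {β : E → ℝ}
    (h0 : ∀ e ∈ W, 0 ≤ β e) :
    inner ℝ (-∑ e ∈ W, (β e * ((1 - inner ℝ e w) / 2)) • e) w =
      nrm V (-∑ e ∈ W, (β e * ((1 - inner ℝ e w) / 2)) • e) := by
  refine le_antisymm (le_nrm _ hw) (nrm_le h.neV fun x hx => ?_)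
  rw [inner_neg_left, inner_neg_left, inner_sum_smul, inner_sum_smul, neg_le_neg_iff]
  refine Finset.sum_le_sum fun e he => ?_
  have h1 := h.neg_one_le he hx
  have h2 := h0 e he
  rcases h.sign e he w hw with a | a <;> rw [a]
  · simp
  · nlinarith

/-- The first order consequence of the contact property at `w - t η`. -/
theorem CLPair.approx {V W : Finset E} (h : CLPair V W) {lam : ℝ → ℝ} (hp : Profile lam)
    (hc : Contact lam (convexHull ℝ (V : Set E)) (convexHull ℝ (W : Set E))) {w : E} (hw : w ∈ V)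
    {η : E} (hη : ∀ e ∈ W, inner ℝ e w = (1 : ℝ) → (0 : ℝ) ≤ inner ℝ e η) {a c : E}
    (ha : inner ℝ a w = nrm V a) (hcw : inner ℝ c w = nrm V c) {κ : ℝ} (hκ : 0 < κ) :
    ∃ z, inner ℝ (a - z) w = nrm V (a - z) ∧ inner ℝ (c - z) w = nrm V (c - z) ∧
      inner ℝ (a - z) w + inner ℝ (c - z) w ≤ nrm V (a - c) ∧ -κ ≤ inner ℝ z η := by
  set s : E → ℝ := fun e => inner ℝ e w * inner ℝ e η with hs
  have hs0 : ∀ e ∈ W, 0 ≤ s e := fun e he => by
    rcases h.sign e he w hw with h1 | h1
    · simp only [hs, h1, one_mul]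
      exact hη e he h1
    · have := hη (-e) (h.negW e he) (by rw [inner_neg_left, h1, neg_neg])
      rw [inner_neg_left] at this
      simp only [hs, h1]
      linarith
  have hlam : ∀ (t : ℝ), ∀ e ∈ W, lam (inner ℝ e (w - t • η)) = lam (1 - t * s e) := by
    intro t e he
    rw [inner_sub_right, real_inner_smul_right]
    rcases h.sign e he w hw with h1 | h1
    · simp only [hs, h1, one_mul]
    · simp only [hs, h1]
      rw [← hp.even]
      congr 1
      ring
  set M := nrm V a + nrm V c + nrm V (a - c) + 1 with hM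
  have n1 := nrm_nonneg h.neV h.negV a
  have n2 := nrm_nonneg h.neV h.negV c
  have n3 := nrm_nonneg h.neV h.negV (a - c)
  have hM0 : 0 < M := by linarith
  set κ' := κ / M with hκ'
  have hκ'0 : 0 < κ' := div_pos hκ hM0
  have ev1 : ∀ e ∈ W, ∀ᶠ t in 𝓝[>] (0 : ℝ), t * s e ≤ 2 ∧
      |lam (1 - t * s e) / lam (1 - t) - s e| ≤ κ' := by
    intro e he
    rcases (hs0 e he).eq_or_lt with h0 | hpos
    · refine Eventually.of_forall fun t => ?_
      rw [← h0]
      simp [hp.one, hκ'0.le]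
    · have h2 : (0 : ℝ) < 2 := two_pos
      filter_upwards [(tendsto_mul_nhdsGT hpos).eventually (Ioo_mem_nhdsGT h2),
        (hp.ratio (s e) hpos).eventually (Metric.closedBall_mem_nhds (s e) hκ'0)] with t t1 t2
      exact ⟨t1.2.le, by simpa [Real.dist_eq] using t2⟩
  have h01 : (0 : ℝ) < 1 := one_pos
  obtain ⟨t, ht, ht0, ht1⟩ := (((eventually_all_finset W).2 ev1).and (Ioo_mem_nhdsGT h01)).exists
  have hφ : 0 < lam (1 - t) := hp.pos _ ⟨by linarith, by linarith⟩
  have hx : ∀ e ∈ W, inner ℝ e (w - t • η) ≤ (1 : ℝ) := fun e he => by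
    have b1 := (ht e he).1
    have b2 := mul_nonneg ht0.le (hs0 e he)
    rw [inner_sub_right, real_inner_smul_right]
    rcases h.sign e he w hw with h1 | h1
    · simp only [hs, h1] at b1 b2 ⊢
      linarith
    · simp only [hs, h1] at b1 b2 ⊢
      linarith
  obtain ⟨y, μ, hy, μ0, μ1, μ2, μ3⟩ := h.rep_contact hp hc hx (a - c)
  obtain ⟨α, α0, α1, α2⟩ := h.exists_rep a
  obtain ⟨γ, γ0, γ1, γ2⟩ := h.exists_rep c
  have lo : ∀ e ∈ W, (s e - κ') * lam (1 - t) ≤ lam (1 - t * s e) := fun e he => by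
    have := (abs_le.1 (ht e he).2).1
    rw [← le_div_iff₀ hφ]
    linarith
  have hi : ∀ e ∈ W, lam (1 - t * s e) ≤ (s e + κ') * lam (1 - t) := fun e he => by
    have := (abs_le.1 (ht e he).2).2
    rw [← div_le_iff₀ hφ]
    linarith
  -- the pairing with `η` of a vector of the cone
  have pair : ∀ (β : E → ℝ) (u : E), (∀ e ∈ W, 0 ≤ β e) → ∑ e ∈ W, β e = nrm V u →
      ∑ e ∈ W, β e • e = u → inner ℝ u w = nrm V u →
      ∑ e ∈ W, β e * s e = inner ℝ u η := by
    intro β u β0 β1 β2 hu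
    rw [← β2, inner_sum_smul]
    refine Finset.sum_congr rfl fun e he => ?_
    by_cases hb : β e = 0
    · simp [hb]
    · have := h.eq_one_of_rep β0 hw (by rw [β2, β1, hu]) he hb
      simp only [hs, this, one_mul]
  have upper : ∀ (β : E → ℝ), (∀ e ∈ W, 0 ≤ β e) →
      ∑ e ∈ W, β e * lam (1 - t * s e) ≤
        (∑ e ∈ W, β e * s e + κ' * ∑ e ∈ W, β e) * lam (1 - t) := by
    intro β β0
    rw [Finset.mul_sum, ← Finset.sum_add_distrib, Finset.sum_mul]
    refine Finset.sum_le_sum fun e he => ?_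
    have := mul_le_mul_of_nonneg_left (hi e he) (β0 e he)
    linarith
  have ya : inner ℝ a y ≤ (inner ℝ a η + κ' * nrm V a) * lam (1 - t) := by
    rw [← pair α a α0 α1 α2 ha, ← α1]
    refine le_trans ?_ (upper α α0)
    rw [← α2, inner_sum_smul]
    exact Finset.sum_le_sum fun e he =>
      mul_le_mul_of_nonneg_left (hlam t e he ▸ hy e he) (α0 e he)
  have yc : -inner ℝ c y ≤ (inner ℝ c η + κ' * nrm V c) * lam (1 - t) := by
    rw [← pair γ c γ0 γ1 γ2 hcw, ← γ1]
    refine le_trans ?_ (upper γ γ0)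
    rw [← γ2, inner_sum_smul, ← Finset.sum_neg_distrib]
    refine Finset.sum_le_sum fun e he => ?_
    have := hy (-e) (h.negW e he)
    rw [inner_neg_left, inner_neg_left, hp.even, hlam t e he] at this
    have := mul_le_mul_of_nonneg_left this (γ0 e he)
    linarith
  have yv : (∑ e ∈ W, μ e * s e - κ' * nrm V (a - c)) * lam (1 - t) ≤ inner ℝ (a - c) y := by
    refine le_trans ?_ μ3
    calc (∑ e ∈ W, μ e * s e - κ' * nrm V (a - c)) * lam (1 - t)
        ≤ (∑ e ∈ W, μ e * s e - κ' * ∑ e ∈ W, μ e) * lam (1 - t) := by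
          refine mul_le_mul_of_nonneg_right ?_ hφ.le
          have := mul_le_mul_of_nonneg_left μ1 hκ'0.le
          linarith
      _ ≤ ∑ e ∈ W, μ e * lam (inner ℝ e (w - t • η)) := by
          rw [Finset.mul_sum, ← Finset.sum_sub_distrib, Finset.sum_mul]
          refine Finset.sum_le_sum fun e he => ?_
          rw [hlam t e he]
          have := mul_le_mul_of_nonneg_left (lo e he) (μ0 e he)
          linarith
  have main : ∑ e ∈ W, μ e * s e ≤ inner ℝ a η + inner ℝ c η + κ := by
    rw [inner_sub_left] at yv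
    have b1 : (∑ e ∈ W, μ e * s e - κ' * nrm V (a - c)) * lam (1 - t) ≤
        (inner ℝ a η + κ' * nrm V a + (inner ℝ c η + κ' * nrm V c)) * lam (1 - t) := by
      linarith
    have b2 := le_of_mul_le_mul_right b1 hφ
    have b3 : κ' * M = κ := div_mul_cancel₀ κ hM0.ne'
    rw [hM] at b3
    nlinarith
  set u := ∑ e ∈ W, (μ e * ((1 + inner ℝ e w) / 2)) • e with hu
  set u' := -∑ e ∈ W, (μ e * ((1 - inner ℝ e w) / 2)) • e with hu'
  have huu : u - u' = a - c := by
    rw [hu, hu', sub_neg_eq_add, ← Finset.sum_add_distrib, ← μ2]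
    refine Finset.sum_congr rfl fun e _ => ?_
    rw [← add_smul]
    congr 1
    ring
  have hsum : u + u' = ∑ e ∈ W, (μ e * inner ℝ e w) • e := by
    rw [hu, hu', ← sub_eq_add_neg, ← Finset.sum_sub_distrib]
    refine Finset.sum_congr rfl fun e _ => ?_
    rw [← sub_smul]
    congr 1
    ring
  have e1 : a - (a - u) = u := by abel
  have e2 : c - (a - u) = u' := by
    rw [← sub_eq_zero]
    have : c - (a - u) - u' = (u - u') - (a - c) := by abel
    rw [this, huu, sub_self]
  refine ⟨a - u, ?_, ?_, ?_, ?_⟩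
  · rw [e1]
    exact h.cone_of_rep hw μ0
  · rw [e2]
    exact h.cone_of_rep_neg hw μ0
  · rw [e1, e2, ← inner_add_left, hsum, inner_sum_smul]
    refine le_trans (le_of_eq (Finset.sum_congr rfl fun e he => ?_)) μ1
    rcases h.sign e he w hw with h1 | h1 <;> rw [h1] <;> ring
  · have b1 : inner ℝ (u + u') η = ∑ e ∈ W, μ e * s e := by
      rw [hsum, inner_sum_smul]
      exact Finset.sum_congr rfl fun e _ => by simp only [hs]; ring
    have b2 : inner ℝ (u - u') η = inner ℝ (a - c) η := by rw [huu]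
    rw [inner_add_left] at b1
    rw [inner_sub_left, inner_sub_left] at b2
    rw [inner_sub_left]
    linarith

theorem convex_cone_set {V : Finset E} (hV : V.Nonempty) {w : E} (hw : w ∈ V) :
    Convex ℝ {p : E | inner ℝ p w = nrm V p} := by
  intro p hp q hq a b ha hb _
  refine le_antisymm (le_nrm _ hw) ?_
  have h1 := nrm_add_le hV (a • p) (b • q)
  rw [nrm_smul hV ha, nrm_smul hV hb] at h1
  have hp' : inner ℝ p w = nrm V p := hp
  have hq' : inner ℝ q w = nrm V q := hq
  rw [inner_add_left, real_inner_smul_left, real_inner_smul_left, hp', hq']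
  exact h1

theorem CLPair.locMedian [FiniteDimensional ℝ E] {V W : Finset E} (h : CLPair V W)
    {lam : ℝ → ℝ} (hp : Profile lam)
    (hc : Contact lam (convexHull ℝ (V : Set E)) (convexHull ℝ (W : Set E))) : LocMedian V := by
  intro w hw a c ha hcw
  have : ProperSpace E := FiniteDimensional.proper ℝ E
  have hcont := continuous_nrm h.neV
  set C : Set E := {p | inner ℝ p w = nrm V p} with hC
  have hCconv : Convex ℝ C := convex_cone_set h.neV hw
  have hCcl : IsClosed C := isClosed_eq (by fun_prop) hcont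
  set Z : Set E := {z | a - z ∈ C ∧ c - z ∈ C ∧
    inner ℝ (a - z) w + inner ℝ (c - z) w ≤ nrm V (a - c)} with hZ
  have hZconv : Convex ℝ Z := by
    intro p hp q hq s t hs ht hst
    have r : ∀ d : E, d - (s • p + t • q) = s • (d - p) + t • (d - q) := fun d => by
      rw [smul_sub, smul_sub]
      have : d = s • d + t • d := by rw [← add_smul, hst, one_smul]
      conv_lhs => rw [this]
      abel
    refine ⟨?_, ?_, ?_⟩
    · rw [r]
      exact hCconv hp.1 hq.1 hs ht hst
    · rw [r]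
      exact hCconv hp.2.1 hq.2.1 hs ht hst
    · rw [r, r, inner_add_left, inner_add_left, real_inner_smul_left, real_inner_smul_left,
        real_inner_smul_left, real_inner_smul_left]
      have b1 := mul_le_mul_of_nonneg_left hp.2.2 hs
      have b2 := mul_le_mul_of_nonneg_left hq.2.2 ht
      have b3 : s * nrm V (a - c) + t * nrm V (a - c) = nrm V (a - c) := by
        rw [← add_mul, hst, one_mul]
      linarith
  have hZcl : IsClosed Z :=
    (hCcl.preimage (f := fun z => a - z) (by fun_prop)).inter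
      ((hCcl.preimage (f := fun z => c - z) (by fun_prop)).inter
        (isClosed_le (f := fun z => inner ℝ (a - z) w + inner ℝ (c - z) w) (by fun_prop)
          continuous_const))
  have hZb : Bornology.IsBounded Z := by
    refine (Metric.isBounded_closedBall (x := a) (r := (∑ e ∈ W, ‖e‖) * nrm V (a - c))).subset
      fun z hz => ?_
    rw [Metric.mem_closedBall, dist_comm, dist_eq_norm]
    refine (h.norm_le (a - z)).trans (mul_le_mul_of_nonneg_left ?_
      (Finset.sum_nonneg fun _ _ => norm_nonneg _))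
    have b1 : inner ℝ (a - z) w = nrm V (a - z) := hz.1
    have b2 : inner ℝ (c - z) w = nrm V (c - z) := hz.2.1
    have b3 := hz.2.2
    have := nrm_nonneg h.neV h.negV (c - z)
    linarith
  by_cases hdis : Disjoint Z C
  · exfalso
    obtain ⟨f, u, v, hfu, huv, hfv⟩ := geometric_hahn_banach_compact_closed hZconv
      (Metric.isCompact_of_isClosed_isBounded hZcl hZb) hCconv hCcl hdis
    have hv0 : v < 0 := by
      have := hfv 0 (by simp [hC, nrm_zero h.neV])
      rwa [map_zero] at this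
    set η := (InnerProductSpace.toDual ℝ E).symm f with hηdef
    have hfη : ∀ p, inner ℝ p η = f p := fun p => by
      rw [real_inner_comm, hηdef, InnerProductSpace.toDual_symm_apply]
    have hη : ∀ e ∈ W, inner ℝ e w = (1 : ℝ) → (0 : ℝ) ≤ inner ℝ e η := by
      intro e he hew
      by_contra hneg
      push Not at hneg
      rw [hfη] at hneg
      have ht : 0 ≤ v / f e := div_nonneg_of_nonpos hv0.le hneg.le
      have hmem : (v / f e) • e ∈ C := by
        refine le_antisymm (le_nrm _ hw) (nrm_le h.neV fun x hx => ?_)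
        rw [real_inner_smul_left, real_inner_smul_left, hew]
        exact mul_le_mul_of_nonneg_left (h.le_one he hx) ht
      have := hfv _ hmem
      rw [map_smul, smul_eq_mul, div_mul_cancel₀ _ hneg.ne] at this
      exact lt_irrefl _ this
    obtain ⟨z, z1, z2, z3, z4⟩ := h.approx hp hc hw hη ha hcw (neg_pos.2 hv0)
    have := hfu z ⟨z1, z2, z3⟩
    rw [hfη] at z4
    linarith
  · obtain ⟨z, hzZ, hzC⟩ := Set.not_disjoint_iff.1 hdis
    refine ⟨z, hzC, hzZ.1, hzZ.2.1, le_antisymm ?_ ?_⟩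
    · have := nrm_sub_le h.neV h.negV (a - z) (c - z)
      rwa [sub_sub_sub_cancel_right] at this
    · have b1 : inner ℝ (a - z) w = nrm V (a - z) := hzZ.1
      have b2 : inner ℝ (c - z) w = nrm V (c - z) := hzZ.2.1
      have b3 := hzZ.2.2
      linarith

end Vale.Agent.P248Z.Eq
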