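import Vale.Agent.P248Z.Eq.Cone
import Mathlib.Analysis.Convex.Extreme
import Mathlib.Analysis.InnerProductSpace.Convex

/-! The contact property at farthest points: a body with the contact property is a polytope and
all pairings of its vertices with those of the polar are `1` or `-1`. -/

namespace Vale.Agent.P248Z.Eq

open Filter Topology

variable {E : Type*} [NormedAddCommGroup E] [InnerProductSpace ℝ E]

/-- Two compact symmetric sets, each the polar of the other. -/
structure DualPair (K L : Set E) : Prop where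
  compK : IsCompact K
  compL : IsCompact L
  negK : ∀ x ∈ K, -x ∈ K
  negL : ∀ y ∈ L, -y ∈ L
  memK : ∀ x, x ∈ K ↔ ∀ y ∈ L, inner ℝ y x ≤ (1 : ℝ)
  memL : ∀ y, y ∈ L ↔ ∀ x ∈ K, inner ℝ y x ≤ (1 : ℝ)

theorem DualPair.symm {K L : Set E} (h : DualPair K L) : DualPair L K where
  compK := h.compL
  compL := h.compK
  negK := h.negL
  negL := h.negK
  memK := fun x => by
    rw [h.memL]
    exact forall₂_congr fun y _ => by rw [real_inner_comm]
  memL := fun x => by
    rw [h.memK]
    exact forall₂_congr fun y _ => by rw [real_inner_comm]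

theorem DualPair.zero_mem {K L : Set E} (h : DualPair K L) : (0 : E) ∈ K :=
  (h.memK 0).2 fun y _ => by simp

theorem DualPair.convex {K L : Set E} (h : DualPair K L) : Convex ℝ K := by
  intro x hx z hz a b ha hb hab
  refine (h.memK _).2 fun y hy => ?_
  have h1 := (h.memK x).1 hx y hy
  have h2 := (h.memK z).1 hz y hy
  rw [inner_add_right, real_inner_smul_right, real_inner_smul_right]
  nlinarith

theorem DualPair.mem_Icc {K L : Set E} (h : DualPair K L) {x y : E} (hx : x ∈ K) (hy : y ∈ L) :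
    inner ℝ y x ∈ Set.Icc (-1 : ℝ) 1 := by
  have h1 := (h.memK x).1 hx y hy
  have h2 := (h.memK x).1 hx (-y) (h.negL y hy)
  rw [inner_neg_left] at h2
  exact ⟨by linarith, h1⟩

/-- A vector that pairs to at most `0` with all of `K` is zero. -/
theorem DualPair.eq_zero {K L : Set E} (h : DualPair K L) {u : E}
    (hu : ∀ x ∈ K, inner ℝ u x ≤ (0 : ℝ)) : u = 0 := by
  by_contra hne
  have hpos : 0 < ‖u‖ := norm_pos_iff.2 hne
  obtain ⟨D, hD⟩ := h.compL.isBounded.exists_norm_le
  have hD0 : 0 ≤ D := (norm_nonneg _).trans (hD 0 h.symm.zero_mem)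
  have ht : 0 ≤ (D + 1) / ‖u‖ := by positivity
  have hmem : ((D + 1) / ‖u‖) • u ∈ L := (h.memL _).2 fun x hx => by
    rw [real_inner_smul_left]
    have := mul_nonpos_of_nonneg_of_nonpos ht (hu x hx)
    linarith
  have := hD _ hmem
  rw [norm_smul, Real.norm_of_nonneg ht, div_mul_cancel₀ _ hpos.ne'] at this
  linarith

/-- The points of `K` that are farthest from some point. -/
def Far (K : Set E) : Set E := {w | w ∈ K ∧ ∃ p, ∀ x ∈ K, ‖x - p‖ ≤ ‖w - p‖}

omit [InnerProductSpace ℝ E] in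
theorem far_neg {K : Set E} (hneg : ∀ x ∈ K, -x ∈ K) {w : E} (hw : w ∈ Far K) : -w ∈ Far K := by
  obtain ⟨hw, p, hp⟩ := hw
  refine ⟨hneg w hw, -p, fun x hx => ?_⟩
  have := hp (-x) (hneg x hx)
  rw [← norm_neg (x - -p), ← norm_neg (-w - -p)]
  have e1 : -(x - -p) = -x - p := by abel
  have e2 : -(-w - -p) = w - p := by abel
  rwa [e1, e2]

theorem far_sup {K : Set E} (hK : IsCompact K) {x : E} (hx : x ∈ K) (u : E) {ε : ℝ}
    (hε : 0 < ε) : ∃ w ∈ Far K, inner ℝ u x - ε ≤ inner ℝ u w := by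
  obtain ⟨D, hD⟩ := hK.isBounded.exists_norm_le
  set R := (D ^ 2 + 1) / (2 * ε) with hR
  have hR0 : 0 < R := by positivity
  obtain ⟨w, hw, hmax⟩ := hK.exists_isMaxOn ⟨x, hx⟩
    (f := fun z => ‖z - -(R • u)‖) (by fun_prop)
  refine ⟨w, ⟨hw, -(R • u), fun z hz => hmax hz⟩, ?_⟩
  have h1 : ‖x - -(R • u)‖ ≤ ‖w - -(R • u)‖ := hmax hx
  rw [sub_neg_eq_add, sub_neg_eq_add] at h1
  have h2 := pow_le_pow_left₀ (norm_nonneg _) h1 2
  rw [norm_add_sq_real, norm_add_sq_real, real_inner_smul_right, real_inner_smul_right,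
    real_inner_comm u x, real_inner_comm u w] at h2
  have h3 : ‖w‖ ^ 2 ≤ D ^ 2 := pow_le_pow_left₀ (norm_nonneg _) (hD w hw) 2
  have h4 : R * (2 * ε) = D ^ 2 + 1 := div_mul_cancel₀ _ (by positivity)
  have h5 : R * (inner ℝ u x - ε) ≤ R * inner ℝ u w := by nlinarith [sq_nonneg ‖x‖]
  exact le_of_mul_le_mul_left h5 hR0

theorem far_le {K : Set E} (hK : IsCompact K) {u : E} {r : ℝ}
    (h : ∀ w ∈ Far K, inner ℝ u w ≤ r) {x : E} (hx : x ∈ K) : inner ℝ u x ≤ r := by
  refine le_of_forall_pos_le_add fun ε hε => ?_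
  obtain ⟨w, hw, hle⟩ := far_sup hK hx u hε
  linarith [h w hw]

theorem far_mem_of_hull {L S : Set E} (hL : Convex ℝ L) (hS : S ⊆ L) {w : E} (hw : w ∈ Far L)
    (hwS : w ∈ convexHull ℝ S) : w ∈ S := by
  obtain ⟨-, p, hp⟩ := hw
  have hsub : convexHull ℝ S ⊆ L := convexHull_min hS hL
  refine extremePoints_convexHull_subset (𝕜 := ℝ) (mem_extremePoints_iff_left.2 ⟨hwS, ?_⟩)
  rintro x₁ h₁ x₂ h₂ ⟨a, b, ha, hb, hab, hx⟩
  by_cases hne : x₁ = x₂
  · rw [← hx, ← hne, ← add_smul, hab, one_smul]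
  · exfalso
    have := norm_combo_lt_of_ne (hp x₁ (hsub h₁)) (hp x₂ (hsub h₂))
      (fun h => hne (sub_left_injective h)) ha hb hab
    have e : a • (x₁ - p) + b • (x₂ - p) = w - p := by
      rw [smul_sub, smul_sub, ← hx]
      have : p = a • p + b • p := by rw [← add_smul, hab, one_smul]
      conv_rhs => rw [this]
      abel
    rw [e] at this
    exact lt_irrefl _ this

/-- At a farthest point there is no room in the imaginary direction. -/
theorem DualPair.far_flat {K L : Set E} (h : DualPair K L) {lam : ℝ → ℝ} (hp : Profile lam)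
    {w y : E} (hw : w ∈ Far K) (hy : ∀ b ∈ L, inner ℝ b y ≤ lam (inner ℝ b w)) : y = 0 := by
  obtain ⟨hwK, p, hfar⟩ := hw
  set c := |inner ℝ (w - p) w| with hc
  have hc0 : 0 ≤ c := abs_nonneg _
  have key : ∀ κ : ℝ, 0 < κ → κ ≤ 1 → ‖y‖ ^ 2 ≤ 4 * κ * c := by
    intro κ hκ hκ1
    have h01 : (0 : ℝ) < 1 := one_pos
    obtain ⟨t, ht, ht0, ht1⟩ := ((hp.flat hκ).and (Ioo_mem_nhdsGT h01)).exists
    set s := 1 + κ * t ^ 2 with hs
    have hκt : 0 ≤ κ * t ^ 2 := by positivity
    have hs0 : 0 < s := by linarith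
    have hs2 : s ≤ 2 := by
      have : t ^ 2 ≤ 1 := by nlinarith
      nlinarith
    have mem : ∀ z : E, (∀ b ∈ L, inner ℝ b z ≤ lam (inner ℝ b w)) →
        ‖w + t • z - s • p‖ ^ 2 ≤ s ^ 2 * ‖w - p‖ ^ 2 := by
      intro z hz
      have hm : s⁻¹ • (w + t • z) ∈ K := (h.memK _).2 fun b hb => by
        rw [real_inner_smul_right, inner_add_right, real_inner_smul_right, inv_mul_le_iff₀ hs0,
          mul_one]
        have a1 := ht _ (h.mem_Icc hwK hb)
        have a2 := mul_le_mul_of_nonneg_left (hz b hb) ht0.le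
        linarith
      have a3 := hfar _ hm
      have e : w + t • z - s • p = s • (s⁻¹ • (w + t • z) - p) := by
        rw [smul_sub, smul_smul, mul_inv_cancel₀ hs0.ne', one_smul]
      rw [e, norm_smul, Real.norm_of_nonneg hs0.le, mul_pow]
      exact mul_le_mul_of_nonneg_left (pow_le_pow_left₀ (norm_nonneg _) a3 2) (sq_nonneg s)
    have m1 := mem y hy
    have m2 := mem (-y) fun b hb => by
      have := hy (-b) (h.negL b hb)
      rwa [inner_neg_left, inner_neg_left, hp.even, ← inner_neg_right] at this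
    have e1 : w + t • y - s • p = (w - s • p) + t • y := by abel
    have e2 : w + t • -y - s • p = (w - s • p) - t • y := by
      rw [smul_neg]
      abel
    have e3 : w - s • p = s • (w - p) - (κ * t ^ 2) • w := by
      rw [hs]
      module
    rw [e1, norm_add_sq_real] at m1
    rw [e2, norm_sub_sq_real] at m2
    have m3 : ‖w - s • p‖ ^ 2 = s ^ 2 * ‖w - p‖ ^ 2 - 2 * (s * (κ * t ^ 2 * inner ℝ (w - p) w)) +
        ‖(κ * t ^ 2) • w‖ ^ 2 := by
      rw [e3, norm_sub_sq_real, norm_smul, Real.norm_of_nonneg hs0.le, mul_pow,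
        real_inner_smul_left, real_inner_smul_right]
    have m4 : ‖t • y‖ ^ 2 = t ^ 2 * ‖y‖ ^ 2 := by
      rw [norm_smul, Real.norm_of_nonneg ht0.le, mul_pow]
    have m5 : inner ℝ (w - p) w ≤ c := le_abs_self _
    have m6 : s * (κ * t ^ 2 * inner ℝ (w - p) w) ≤ 2 * (κ * t ^ 2 * c) :=
      (mul_le_mul_of_nonneg_left (mul_le_mul_of_nonneg_left m5 hκt) hs0.le).trans
        (mul_le_mul_of_nonneg_right hs2 (mul_nonneg hκt hc0))
    have m7 : t ^ 2 * ‖y‖ ^ 2 ≤ t ^ 2 * (4 * κ * c) := by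
      nlinarith [sq_nonneg ‖(κ * t ^ 2) • w‖]
    exact le_of_mul_le_mul_left m7 (by positivity)
  have h0 : ‖y‖ ^ 2 ≤ 0 := by
    refine le_of_forall_pos_le_add fun ε hε => ?_
    have hκ : 0 < min 1 (ε / (4 * c + 1)) := lt_min one_pos (by positivity)
    have a1 := key _ hκ (min_le_left _ _)
    have a2 : min 1 (ε / (4 * c + 1)) ≤ ε / (4 * c + 1) := min_le_right _ _
    rw [le_div_iff₀ (by positivity)] at a2
    nlinarith
  exact norm_eq_zero.1 (pow_eq_zero_iff two_ne_zero |>.1 (le_antisymm h0 (sq_nonneg _)))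

theorem DualPair.far_ne_zero [Nontrivial E] {K L : Set E} (h : DualPair K L) :
    (0 : E) ∉ Far L := by
  rintro ⟨-, p, hp⟩
  refine NormedSpace.unbounded_univ ℝ E (h.compK.isBounded.subset fun x _ => ?_)
  refine (h.memK x).2 fun y hy => ?_
  have a1 := pow_le_pow_left₀ (norm_nonneg _) (hp y hy) 2
  have a2 := pow_le_pow_left₀ (norm_nonneg _) (hp (-y) (h.negL y hy)) 2
  rw [norm_sub_sq_real, zero_sub, norm_neg] at a1 a2
  rw [inner_neg_left, norm_neg] at a2
  have a3 : ‖y‖ ^ 2 ≤ 0 := by linarith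
  have : y = 0 := norm_eq_zero.1 (pow_eq_zero_iff two_ne_zero |>.1 (le_antisymm a3 (sq_nonneg _)))
  simp [this]

theorem DualPair.far_sign [Nontrivial E] {K L : Set E} (h : DualPair K L) {lam : ℝ → ℝ}
    (hp : Profile lam) (hc : Contact lam K L) {e w : E} (he : e ∈ Far L) (hw : w ∈ Far K) :
    inner ℝ e w = (1 : ℝ) ∨ inner ℝ e w = (-1 : ℝ) := by
  obtain ⟨y, hy, hv⟩ := hc w hw.1 e he.1
  have hy0 := h.far_flat hp hw hy
  have := far_mem_of_hull h.symm.convex (by
    rintro b (rfl | hb)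
    · exact h.symm.zero_mem
    · exact hb.1) he hv
  rcases this with rfl | ⟨-, h2⟩
  · exact absurd he h.far_ne_zero
  · rw [hy0, inner_zero_right] at h2
    exact hp.eq_of_eq_zero (h.mem_Icc hw.1 he.1) h2.symm

theorem DualPair.far_finite {K L : Set E} (h : DualPair K L)
    (hs : ∀ e ∈ Far L, ∀ w ∈ Far K, inner ℝ e w = (1 : ℝ) ∨ inner ℝ e w = (-1 : ℝ)) :
    (Far L).Finite := by
  obtain ⟨D, hD⟩ := h.compK.isBounded.exists_norm_le
  have hD0 : 0 ≤ D := (norm_nonneg _).trans (hD 0 h.zero_mem)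
  have hsep : ∀ e ∈ Far L, ∀ e' ∈ Far L, dist e e' < 2 / (D + 1) → e = e' := by
    intro e he e' he' hd
    rw [← sub_eq_zero]
    refine h.eq_zero fun x hx => far_le h.compK (fun w hw => ?_) hx
    have a1 : inner ℝ (e - e') w ≤ ‖e - e'‖ * ‖w‖ := real_inner_le_norm _ _
    rw [dist_eq_norm, lt_div_iff₀ (by positivity)] at hd
    have a2 := mul_le_mul_of_nonneg_left (hD w hw.1) (norm_nonneg (e - e'))
    have a3 := norm_nonneg (e - e')
    rw [inner_sub_left] at a1 ⊢
    rcases hs e he w hw with b | b <;> rcases hs e' he' w hw with b' | b' <;>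
      rw [b, b'] at a1 ⊢ <;> linarith
  have htb : TotallyBounded (Far L) := h.compL.totallyBounded.subset fun _ hx => hx.1
  obtain ⟨T, hT, hcov⟩ := Metric.totallyBounded_iff.1 htb (1 / (D + 1)) (by positivity)
  refine (hT.biUnion (t := fun y => Far L ∩ Metric.ball y (1 / (D + 1)))
    fun y _ => Set.Subsingleton.finite fun e he e' he' => hsep e he.1 e' he'.1 ?_).subset
    fun e he => ?_
  · have a1 : dist e y < 1 / (D + 1) := he.2
    have a2 : dist e' y < 1 / (D + 1) := he'.2
    have a3 := dist_triangle_right e e' y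
    have a4 : 2 / (D + 1) = 1 / (D + 1) + 1 / (D + 1) := by ring
    linarith
  · obtain ⟨y, hy, hey⟩ := Set.mem_iUnion₂.1 (hcov he)
    exact Set.mem_iUnion₂.2 ⟨y, hy, he, hey⟩

theorem far_hull [CompleteSpace E] {K : Set E} (hK : IsCompact K) (hconv : Convex ℝ K)
    (hf : (Far K).Finite) : K = convexHull ℝ (hf.toFinset : Set E) := by
  rw [Set.Finite.coe_toFinset]
  refine Set.Subset.antisymm (fun x hx => ?_) (convexHull_min (fun _ hx => hx.1) hconv)
  by_contra hnot
  obtain ⟨f, u, hfu, hux⟩ := geometric_hahn_banach_closed_point (convex_convexHull ℝ (Far K))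
    (hf.isCompact_convexHull ℝ).isClosed hnot
  set η := (InnerProductSpace.toDual ℝ E).symm f with hηdef
  have hfη : ∀ p, inner ℝ η p = f p := fun p => by
    rw [hηdef, InnerProductSpace.toDual_symm_apply]
  have := far_le hK (u := η) (r := u)
    (fun w hw => by rw [hfη]; exact (hfu w (subset_convexHull ℝ _ hw)).le) hx
  rw [hfη] at this
  linarith

/-- A dual pair with the contact property is a pair of polytopes with all pairings of vertices
equal to `1` or `-1`. -/
theorem DualPair.exists_clPair [Nontrivial E] [CompleteSpace E] {K L : Set E} (h : DualPair K L)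
    {lam : ℝ → ℝ} (hp : Profile lam) (hc : Contact lam K L) :
    ∃ V W : Finset E, CLPair V W ∧ K = convexHull ℝ (V : Set E) ∧
      L = convexHull ℝ (W : Set E) := by
  have hs := fun e he w hw => h.far_sign hp hc (e := e) (w := w) he hw
  have fL := h.far_finite hs
  have fK := h.symm.far_finite fun e he w hw => by
    rw [real_inner_comm]
    exact hs w hw e he
  have eK := far_hull h.compK h.convex fK
  have eL := far_hull h.compL h.symm.convex fL
  have ne : ∀ {A : Set E} (_ : IsCompact A) (_ : (0 : E) ∈ A) (fA : (Far A).Finite),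
      fA.toFinset.Nonempty := fun hA h0 fA => by
    obtain ⟨w, hw, -⟩ := far_sup hA h0 0 one_pos
    exact ⟨w, fA.mem_toFinset.2 hw⟩
  refine ⟨fK.toFinset, fL.toFinset, ⟨ne h.compK h.zero_mem fK, ne h.compL h.symm.zero_mem fL,
    fun x hx => fK.mem_toFinset.2 (far_neg h.negK (fK.mem_toFinset.1 hx)),
    fun x hx => fL.mem_toFinset.2 (far_neg h.negL (fL.mem_toFinset.1 hx)),
    fun e he x hx => hs e (fL.mem_toFinset.1 he) x (fK.mem_toFinset.1 hx),
    fun x hx => ?_, fun y hy => ?_⟩, eK, eL⟩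
  · rw [← eK]
    refine (h.memK x).2 fun y hy => ?_
    rw [real_inner_comm]
    exact far_le h.compL (fun e he => by
      rw [real_inner_comm]
      exact hx e (fL.mem_toFinset.2 he)) hy
  · rw [← eL]
    exact (h.memL y).2 fun x hx => far_le h.compK (fun w hw => hy w (fK.mem_toFinset.2 hw)) hx

end Vale.Agent.P248Z.Eq
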