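import Vale.Agent.P248Z.Eq.Main

/-! The equality block in the form used by the assembly: from the two contact properties. -/

namespace Vale.Agent.P248Z.Eq

variable {n : ℕ} {K : Set (EuclideanSpace ℝ (Fin n))}

theorem structure_of_contactE (hn : 1 ≤ n) (h : Geo.SymBody K)
    (c₁ : ∀ x ∈ Geo.polE K, ∀ v ∈ K, Geo.ContactE Lens.lam K x v)
    (c₂ : ∀ x ∈ K, ∀ v ∈ Geo.polE K, Geo.ContactE Lens.lam (Geo.polE K) x v) :
    ∃ V W : Finset (EuclideanSpace ℝ (Fin n)), CLPair V W ∧
      K = convexHull ℝ (V : Set (EuclideanSpace ℝ (Fin n))) ∧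
      Geo.polE K = convexHull ℝ (W : Set (EuclideanSpace ℝ (Fin n))) ∧
      HannerFace V W ∧ HannerFace W V := by
  have : Nonempty (Fin n) := ⟨⟨0, hn⟩⟩
  exact (dualPair_polE h).structure_of_contact profile_lens (contact_of_contactE c₂)
    (contact_of_contactE c₁)

end Vale.Agent.P248Z.Eq
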