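import Vale.Agent.P248Z.Eq.Far
import Vale.Agent.P248Z.Lens.Glue
import Mathlib.Analysis.Convex.Gauge

/-! The equality case: a symmetric convex body with volume product at most `4 ^ n / n!` is a
polytope with all vertex pairings `1` or `-1`, with the face condition of Hanner and medians. -/

namespace Vale.Agent.P248Z.Eq

open MeasureTheory

section General

variable {E : Type*} [NormedAddCommGroup E] [InnerProductSpace ℝ E]

/-- The face condition, for the faces cut out by two sets of vertices of the polar. -/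
theorem HannerFace.of_sets {V W : Finset E} (hf : HannerFace V W) (S₁ S₂ : Finset E)
    (h₁ : S₁ ⊆ V) (h₂ : S₂ ⊆ V) (n₁ : S₁.Nonempty) (n₂ : S₂.Nonempty)
    (hd : ¬ ∃ e ∈ W, (∀ s ∈ S₁, inner ℝ e s = (1 : ℝ)) ∧ ∀ s ∈ S₂, inner ℝ e s = (1 : ℝ)) :
    ∃ x ∈ V, (∀ e ∈ W, (∀ s ∈ S₁, inner ℝ e s = (1 : ℝ)) → inner ℝ e x = (1 : ℝ)) ∧
      ∀ e ∈ W, (∀ s ∈ S₂, inner ℝ e s = (1 : ℝ)) → inner ℝ e x = (-1 : ℝ) := by
  classical
  obtain ⟨s₁, hs₁⟩ := n₁
  obtain ⟨s₂, hs₂⟩ := n₂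
  obtain ⟨x, hx, t₁, t₂⟩ := hf (W.filter fun e => ∀ s ∈ S₁, inner ℝ e s = (1 : ℝ))
    (W.filter fun e => ∀ s ∈ S₂, inner ℝ e s = (1 : ℝ)) (Finset.filter_subset _ _)
    (Finset.filter_subset _ _)
    ⟨s₁, h₁ hs₁, fun f hf => (Finset.mem_filter.1 hf).2 s₁ hs₁⟩
    ⟨s₂, h₂ hs₂, fun f hf => (Finset.mem_filter.1 hf).2 s₂ hs₂⟩
    fun e he c₁ c₂ => hd ⟨e, he,
      fun s hs => c₁ s (h₁ hs) fun f hf => (Finset.mem_filter.1 hf).2 s hs,
      fun s hs => c₂ s (h₂ hs) fun f hf => (Finset.mem_filter.1 hf).2 s hs⟩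
  refine ⟨x, hx, fun e he hs => t₁ e (Finset.mem_filter.2 ⟨he, hs⟩), fun e he hs => ?_⟩
  have := t₂ e (Finset.mem_filter.2 ⟨he, hs⟩)
  rw [inner_neg_right] at this
  linarith

theorem DualPair.structure_of_contact [Nontrivial E] [FiniteDimensional ℝ E] {K L : Set E}
    (h : DualPair K L) {lam : ℝ → ℝ} (hp : Profile lam) (hc : Contact lam K L)
    (hc' : Contact lam L K) :
    ∃ V W : Finset E, CLPair V W ∧ K = convexHull ℝ (V : Set E) ∧
      L = convexHull ℝ (W : Set E) ∧ HannerFace V W ∧ HannerFace W V := by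
  have : CompleteSpace E := FiniteDimensional.complete ℝ E
  obtain ⟨V, W, hVW, hK, hL⟩ := h.exists_clPair hp hc
  have mV : LocMedian V := hVW.locMedian hp (by rwa [← hK, ← hL])
  have mW : LocMedian W := hVW.symm.locMedian hp (by rwa [← hK, ← hL])
  exact ⟨V, W, hVW, hK, hL, hVW.hannerFace mV mW, hVW.symm.hannerFace mW mV⟩

theorem CLPair.mem_hull_iff {V W : Finset E} (h : CLPair V W) (y : E) :
    y ∈ convexHull ℝ (W : Set E) ↔ nrm V y ≤ 1 := by
  refine ⟨fun hy => nrm_le h.neV fun x hx => ?_, fun hy => h.hullW y fun x hx =>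
    (le_nrm y hx).trans hy⟩
  obtain ⟨s, s0, s1, s2⟩ := Finset.mem_convexHull'.1 hy
  rw [← s2, inner_sum_smul, ← s1]
  refine Finset.sum_le_sum fun e he => ?_
  have := mul_le_mul_of_nonneg_left (h.le_one he hx) (s0 e he)
  rwa [mul_one] at this

/-- The gauge of the polar polytope is the support function. -/
theorem CLPair.gauge_eq {V W : Finset E} (h : CLPair V W) (u : E) :
    gauge (convexHull ℝ (W : Set E)) u = nrm V u := by
  have hn := nrm_nonneg h.neV h.negV u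
  have hmem : ∀ r : ℝ, 0 < r → (r⁻¹ • u ∈ convexHull ℝ (W : Set E) ↔ nrm V u ≤ r) := by
    intro r hr
    rw [h.mem_hull_iff, nrm_smul h.neV (inv_nonneg.2 hr.le), inv_mul_le_iff₀ hr, mul_one]
  rw [gauge_def']
  refine csInf_eq_of_forall_ge_of_forall_gt_exists_lt
    ⟨nrm V u + 1, Set.mem_Ioi.2 (by linarith), (hmem _ (by linarith)).2 (by linarith)⟩
    (fun r hr => (hmem r hr.1).1 hr.2) fun r hr => ?_
  exact ⟨(nrm V u + r) / 2,
    ⟨Set.mem_Ioi.2 (by linarith), (hmem _ (by linarith)).2 (by linarith)⟩, by linarith⟩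

end General

theorem profile_lens : Profile Lens.lam :=
  profile_of_deriv Lens.continuous_lam.continuousOn Lens.lam_neg Lens.concaveOn_lam Lens.lam_one
    (fun _ hq => Lens.lam_pos (abs_lt.2 hq)) fun _ hq => Lens.hasDerivAt_lam hq

variable {n : ℕ} {K : Set (EuclideanSpace ℝ (Fin n))}

theorem dualPair_polE (h : Geo.SymBody K) : DualPair K (Geo.polE K) where
  compK := h.compact
  compL := h.polE.compact
  negK := h.symm
  negL := h.polE.symm
  memK := fun x => by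
    conv_lhs => rw [← h.polE_polE]
    exact forall₂_congr fun y _ => by rw [real_inner_comm]
  memL := fun _ => Iff.rfl

theorem contact_of_contactE {lam : ℝ → ℝ} {L : Set (EuclideanSpace ℝ (Fin n))}
    (h : ∀ x ∈ K, ∀ v ∈ L, Geo.ContactE lam L x v) : Contact lam K L := by
  intro x hx v hv
  obtain ⟨y, hy, β, c, hβ, hc, rfl⟩ := h x hx v hv
  refine ⟨y, hy, ?_⟩
  set S := insert (0 : EuclideanSpace ℝ (Fin n))
    {b | b ∈ L ∧ inner ℝ b y = lam (inner ℝ b x)} with hS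
  have := (convex_convexHull ℝ S).sum_mem (t := Finset.univ) (ι := Option (Fin n))
    (w := fun o => o.elim (1 - ∑ k, c k) c) (z := fun o => o.elim 0 β)
    (fun o _ => by
      cases o with
      | none => simpa using hc
      | some k => exact (hβ k).2.1)
    (by simp [Fintype.sum_option])
    (fun o _ => by
      cases o with
      | none => exact subset_convexHull ℝ S (Set.mem_insert _ _)
      | some k => exact subset_convexHull ℝ S (Set.mem_insert_of_mem _ ⟨(hβ k).1, (hβ k).2.2⟩))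
  simpa [Fintype.sum_option] using this

/-- The structure of a symmetric body with volume product at most `4 ^ n / n!`. -/
theorem structure_of_le (hn : 1 ≤ n) (h : Geo.SymBody K) (hA : Geo.Input Lens.lam n)
    (he : volume K * volume (Geo.polE K) ≤ ENNReal.ofReal (4 ^ n / n.factorial)) :
    ∃ V W : Finset (EuclideanSpace ℝ (Fin n)), CLPair V W ∧
      K = convexHull ℝ (V : Set (EuclideanSpace ℝ (Fin n))) ∧
      Geo.polE K = convexHull ℝ (W : Set (EuclideanSpace ℝ (Fin n))) ∧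
      HannerFace V W ∧ HannerFace W V := by
  have : Nonempty (Fin n) := ⟨⟨0, hn⟩⟩
  exact (dualPair_polE h).structure_of_contact profile_lens
    (contact_of_contactE (h.contact_polE Lens.profile_lam hA he))
    (contact_of_contactE (h.contact Lens.profile_lam hA he))

/-- The same, spelled out: (E1) and (E2) for both sides. -/
theorem structure_of_le' (hn : 1 ≤ n) (h : Geo.SymBody K) (hA : Geo.Input Lens.lam n)
    (he : volume K * volume (Geo.polE K) ≤ ENNReal.ofReal (4 ^ n / n.factorial)) :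
    ∃ V W : Finset (EuclideanSpace ℝ (Fin n)),
      (∀ x ∈ V, -x ∈ V) ∧ (∀ e ∈ W, -e ∈ W) ∧
      K = convexHull ℝ (V : Set (EuclideanSpace ℝ (Fin n))) ∧
      Geo.polE K = convexHull ℝ (W : Set (EuclideanSpace ℝ (Fin n))) ∧
      (∀ e ∈ W, ∀ x ∈ V, inner ℝ e x = (1 : ℝ) ∨ inner ℝ e x = (-1 : ℝ)) ∧
      (∀ S₁ S₂ : Finset (EuclideanSpace ℝ (Fin n)), S₁ ⊆ V → S₂ ⊆ V → S₁.Nonempty →
        S₂.Nonempty →
        (¬ ∃ e ∈ W, (∀ s ∈ S₁, inner ℝ e s = (1 : ℝ)) ∧ ∀ s ∈ S₂, inner ℝ e s = (1 : ℝ)) →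
        ∃ x ∈ V, (∀ e ∈ W, (∀ s ∈ S₁, inner ℝ e s = (1 : ℝ)) → inner ℝ e x = (1 : ℝ)) ∧
          ∀ e ∈ W, (∀ s ∈ S₂, inner ℝ e s = (1 : ℝ)) → inner ℝ e x = (-1 : ℝ)) ∧
      (∀ S₁ S₂ : Finset (EuclideanSpace ℝ (Fin n)), S₁ ⊆ W → S₂ ⊆ W → S₁.Nonempty →
        S₂.Nonempty →
        (¬ ∃ e ∈ V, (∀ s ∈ S₁, inner ℝ e s = (1 : ℝ)) ∧ ∀ s ∈ S₂, inner ℝ e s = (1 : ℝ)) →
        ∃ x ∈ W, (∀ e ∈ V, (∀ s ∈ S₁, inner ℝ e s = (1 : ℝ)) → inner ℝ e x = (1 : ℝ)) ∧
          ∀ e ∈ V, (∀ s ∈ S₂, inner ℝ e s = (1 : ℝ)) → inner ℝ e x = (-1 : ℝ)) := by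
  obtain ⟨V, W, hVW, hK, hL, f₁, f₂⟩ := structure_of_le hn h hA he
  exact ⟨V, W, hVW.negV, hVW.negW, hK, hL, hVW.sign, f₁.of_sets, f₂.of_sets⟩

/-- (E3) Medians of all triples in the norm with unit ball `K`. -/
theorem median_of_le (hn : 1 ≤ n) (h : Geo.SymBody K) (hA : Geo.Input Lens.lam n)
    (he : volume K * volume (Geo.polE K) ≤ ENNReal.ofReal (4 ^ n / n.factorial))
    (a c : EuclideanSpace ℝ (Fin n)) :
    ∃ z, gauge K a = gauge K z + gauge K (a - z) ∧ gauge K c = gauge K z + gauge K (c - z) ∧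
      gauge K (a - c) = gauge K (a - z) + gauge K (c - z) := by
  obtain ⟨V, W, hVW, hK, -, -, f₂⟩ := structure_of_le hn h hA he
  simp only [hK, hVW.symm.gauge_eq]
  exact hVW.symm.median f₂ a c

end Vale.Agent.P248Z.Eq
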